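import Vale.Agent.P269.H332.Euler

/-! Closed formula for the operators `l_k`. -/

set_option autoImplicit false

namespace Vale.Agent.P269.H332

open Vale.Agent.P269.H207 Finset

variable {X : Target} {R' : Type*} [CommRing R'] [Algebra ℂ R']

lemma br_succ_zero (K : ℕ) (x : ℂ) : br (K + 1) 0 x = (x + K) * br K 0 x := by
  unfold br
  rw [Finset.prod_range_succ, mul_add, Polynomial.coeff_add, Polynomial.coeff_mul_X_zero,
    Polynomial.coeff_mul_C]
  ring

lemma br_succ_succ (K i : ℕ) (x : ℂ) :
    br (K + 1) (i + 1) x = br K i x + (x + K) * br K (i + 1) x := by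
  unfold br
  rw [Finset.prod_range_succ, mul_add, Polynomial.coeff_add, Polynomial.coeff_mul_X,
    Polynomial.coeff_mul_C]
  ring

lemma prod_shift (K : ℕ) (x : ℂ) :
    ∏ j ∈ range (K + 1), (Polynomial.X + Polynomial.C (x + j))
      = (∏ j ∈ range K, (Polynomial.X + Polynomial.C (x + 1 + j)))
        * (Polynomial.X + Polynomial.C x) := by
  rw [Finset.prod_range_succ']
  congr 1
  · refine Finset.prod_congr rfl fun j _ => ?_
    congr 2
    push_cast
    ring
  · simp

lemma br_succ_zero' (K : ℕ) (x : ℂ) : br (K + 1) 0 x = x * br K 0 (x + 1) := by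
  unfold br
  rw [prod_shift, mul_add, Polynomial.coeff_add, Polynomial.coeff_mul_X_zero,
    Polynomial.coeff_mul_C]
  ring

lemma br_succ_succ' (K i : ℕ) (x : ℂ) :
    br (K + 1) (i + 1) x = br K i (x + 1) + x * br K (i + 1) (x + 1) := by
  unfold br
  rw [prod_shift, mul_add, Polynomial.coeff_add, Polynomial.coeff_mul_X,
    Polynomial.coeff_mul_C]
  ring

lemma br_self (K : ℕ) (x : ℂ) (i : ℕ) (hi : K < i) : br K i x = 0 := by
  induction K generalizing i with
  | zero =>
    cases i with
    | zero => omega
    | succ i => simp [br, Polynomial.coeff_one]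
  | succ K ih =>
    cases i with
    | zero => omega
    | succ i =>
      rw [br_succ_succ, ih i (by omega), ih (i + 1) (by omega)]
      ring

lemma br_top (K : ℕ) (x : ℂ) : br K K x = 1 := by
  induction K with
  | zero => exact br_zero x
  | succ K ih => rw [br_succ_succ, ih, br_self K x (K + 1) (by omega)]; ring

/-- reflection -/
lemma br_reflect (K i : ℕ) (x : ℂ) :
    br K i (-x - K + 1) = (-1) ^ (K + i) * br K i x := by
  induction K generalizing i with
  | zero =>
    cases i with
    | zero => simp [br_zero]
    | succ i => rw [br_self 0 _ (i + 1) (by omega), br_self 0 _ (i + 1) (by omega)]; ring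
  | succ K ih =>
    have e : -x - ((K + 1 : ℕ) : ℂ) + 1 + 1 = -x - K + 1 := by push_cast; ring
    cases i with
    | zero =>
      rw [br_succ_zero', e, ih, br_succ_zero]
      push_cast
      ring
    | succ i =>
      rw [br_succ_succ', e, ih, ih, br_succ_succ]
      push_cast
      ring

/-- closed formula for `l_k` -/
lemma LK_apply (K : ℕ) (h : HH X R') (n : ℤ) (a : X.ι) :
    LK K h n a = ∑ i ∈ range (K + 1), ∑ c,
      algebraMap ℂ R' (br K i (X.b c + (n + 1 - K + i : ℤ)) * (X.R ^ i) c a)
        • h (n + 1 - K + i) c := by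
  induction K generalizing n a with
  | zero =>
    rw [LK_zero, ziop_apply, zero_add, Finset.sum_range_one, Finset.sum_eq_single a]
    · simp [br_zero]
    · intro b _ hb
      simp [Matrix.one_apply_ne hb]
    · simp
  | succ K ih =>
    rw [LK_succ, l0op_apply, zop_apply]
    have e1 : ∀ c, zop (LK K h) (n + 1) c = LK K h n c := by
      intro c
      rw [zop_apply, add_sub_cancel_right]
    simp only [e1, ih]
    -- the target split
    have key : ∀ i ∈ range (K + 1 + 1), ∀ c,
        algebraMap ℂ R' (br (K + 1) i (X.b c + (n + 1 - (K + 1 : ℕ) + i : ℤ)) * (X.R ^ i) c a)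
          • h (n + 1 - (K + 1 : ℕ) + i) c
        = algebraMap ℂ R' (X.b a + n) •
            (algebraMap ℂ R' (br K i (X.b c + (n - 1 + 1 - K + i : ℤ)) * (X.R ^ i) c a)
              • h (n - 1 + 1 - K + i) c)
          + algebraMap ℂ R' ((if i = 0 then 0 else
              br K (i - 1) (X.b c + (n - 1 + 1 - K + i : ℤ))) * (X.R ^ i) c a)
            • h (n - 1 + 1 - K + i) c := by
      intro i _ c
      have e2 : (n + 1 - (K + 1 : ℕ) + i : ℤ) = n - 1 + 1 - K + i := by push_cast; ring
      rw [e2]
      by_cases hR : (X.R ^ i) c a = 0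
      · simp [hR]
      · have hb := b_Rpow X i c a hR
        rw [smul_smul, ← map_mul, ← add_smul, ← map_add]
        congr 2
        rw [hb]
        cases i with
        | zero =>
          rw [br_succ_zero, if_pos rfl]
          push_cast
          ring
        | succ i =>
          rw [br_succ_succ]
          rw [if_neg (Nat.succ_ne_zero i), Nat.succ_sub_one]
          push_cast
          ring
    rw [Finset.sum_congr rfl fun i hi => Finset.sum_congr rfl fun c _ => key i hi c]
    simp only [Finset.sum_add_distrib]
    congr 1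
    · -- first part
      rw [Finset.sum_range_succ _ (K + 1)]
      have : ∀ c, algebraMap ℂ R' (br K (K + 1) (X.b c + (n - 1 + 1 - K + (K + 1 : ℕ) : ℤ))
          * (X.R ^ (K + 1)) c a) = 0 := by
        intro c
        rw [br_self K _ (K + 1) (by omega), zero_mul, map_zero]
      simp only [this, zero_smul, smul_zero, Finset.sum_const_zero, add_zero]
      rw [Finset.smul_sum]
      exact Finset.sum_congr rfl fun i _ => by rw [Finset.smul_sum]
    · rw [Finset.sum_range_succ']
      simp only [if_true, zero_mul, map_zero, zero_smul, Finset.sum_const_zero, add_zero]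
      have e3 : ∀ i : ℕ, ∀ c, algebraMap ℂ R' ((if i + 1 = 0 then 0 else
          br K (i + 1 - 1) (X.b c + (n - 1 + 1 - K + (i + 1 : ℕ) : ℤ))) * (X.R ^ (i + 1)) c a)
            • h (n - 1 + 1 - K + (i + 1 : ℕ)) c
          = ∑ c', algebraMap ℂ R' (X.R c' a) •
            (algebraMap ℂ R' (br K i (X.b c + (n + 1 - K + i : ℤ)) * (X.R ^ i) c c')
              • h (n + 1 - K + i) c) := by
        intro i c
        rw [if_neg (Nat.succ_ne_zero i), Nat.succ_sub_one]
        have e2 : (n - 1 + 1 - K + (i + 1 : ℕ) : ℤ) = n + 1 - K + i := by push_cast; ring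
        rw [e2, pow_succ, Matrix.mul_apply, Finset.mul_sum, map_sum, Finset.sum_smul]
        refine Finset.sum_congr rfl fun c' _ => ?_
        rw [smul_smul, ← map_mul]
        congr 2
        ring
      simp only [e3, Finset.smul_sum]
      rw [Finset.sum_comm]
      refine Finset.sum_congr rfl fun i _ => ?_
      rw [Finset.sum_comm]

end Vale.Agent.P269.H332
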