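import Vale.Agent.P269.H332.Trr

/-! The tangent spaces to the Lagrangian cone in coordinates. -/

set_option autoImplicit false

namespace Vale.Agent.P269.H332

open Vale.Agent.P269.H207 Finset

variable (X : Target) (R' : Type*) [CommRing R'] [Algebra ℂ R']

/-- `H((z⁻¹))`-valued series, in the basis `φ_a z^n` -/
abbrev HH : Type _ := ℤ → X.ι → List X.V → R'

variable {X R'}

/-- right multiplication by a series -/
def mulR (h : HH X R') (w : List X.V → R') : HH X R' := fun n a => smul2 X.par (h n a) w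

lemma mulR_add (h : HH X R') (w w' : List X.V → R') :
    mulR h (w + w') = mulR h w + mulR h w' := by
  funext n a
  exact smul2_add_right _ _ _

lemma mulR_smul (c : R') (h : HH X R') (w : List X.V → R') :
    mulR h (c • w) = c • mulR h w := by
  funext n a
  exact smul2_smul_right _ _ _

lemma mulR_one (h : HH X R') : mulR h (cst 1) = h := by
  funext n a
  show smul2 X.par (h n a) (cst 1) = h n a
  rw [smul2_cst_right, one_smul]

lemma mulR_mulR (h : HH X R') (w w' : List X.V → R') :
    mulR (mulR h w) w' = mulR h (smul2 X.par w w') := by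
  funext n a
  exact smul2_assoc _ _ _

/-- right multiplication as a linear map in the first argument -/
def mulRL (w : List X.V → R') : HH X R' →ₗ[R'] HH X R' where
  toFun h := mulR h w
  map_add' h h' := by
    funext n a
    exact smul2_add_left _ _ _
  map_smul' c h := by
    funext n a
    exact smul2_smul_left _ _ _

@[simp] lemma mulRL_apply (w : List X.V → R') (h : HH X R') : mulRL w h = mulR h w := rfl

/-- multiplication by `z` -/
def zop : HH X R' →ₗ[R'] HH X R' where
  toFun h := fun n a => h (n - 1) a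
  map_add' _ _ := rfl
  map_smul' _ _ := rfl

/-- multiplication by `z⁻¹` -/
def ziop : HH X R' →ₗ[R'] HH X R' where
  toFun h := fun n a => h (n + 1) a
  map_add' _ _ := rfl
  map_smul' _ _ := rfl

@[simp] lemma zop_apply (h : HH X R') (n : ℤ) (a : X.ι) : zop h n a = h (n - 1) a := rfl
@[simp] lemma ziop_apply (h : HH X R') (n : ℤ) (a : X.ι) : ziop h n a = h (n + 1) a := rfl

lemma ziop_zop (h : HH X R') : ziop (zop h) = h := by
  funext n a
  simp

lemma zop_ziop (h : HH X R') : zop (ziop h) = h := by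
  funext n a
  simp

lemma zop_mulR (h : HH X R') (w : List X.V → R') : zop (mulR h w) = mulR (zop h) w := rfl
lemma ziop_mulR (h : HH X R') (w : List X.V → R') : ziop (mulR h w) = mulR (ziop h) w := rfl

/-- the operator `l_0 = z d/dz + 1/2 + μ + c_1/z` -/
noncomputable def l0op : HH X R' →ₗ[R'] HH X R' where
  toFun h := fun n a => (algebraMap ℂ R' (X.b a + n)) • h n a
    + ∑ c, algebraMap ℂ R' (X.R c a) • h (n + 1) c
  map_add' h h' := by
    funext n a
    simp only [Pi.add_apply, smul_add, Finset.sum_add_distrib]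
    abel
  map_smul' c h := by
    funext n a
    simp only [Pi.smul_apply, smul_add, RingHom.id_apply, Finset.smul_sum]
    congr 1
    · rw [smul_comm]
    · exact Finset.sum_congr rfl fun c' _ => by rw [smul_comm]

lemma l0op_apply (h : HH X R') (n : ℤ) (a : X.ι) :
    l0op h n a = (algebraMap ℂ R' (X.b a + n)) • h n a
      + ∑ c, algebraMap ℂ R' (X.R c a) • h (n + 1) c := rfl

lemma l0op_mulR (h : HH X R') (w : List X.V → R') : l0op (mulR h w) = mulR (l0op h) w := by
  funext n a
  show algebraMap ℂ R' (X.b a + n) • smul2 X.par (h n a) w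
      + ∑ c, algebraMap ℂ R' (X.R c a) • smul2 X.par (h (n + 1) c) w
      = smul2 X.par (algebraMap ℂ R' (X.b a + n) • h n a
      + ∑ c, algebraMap ℂ R' (X.R c a) • h (n + 1) c) w
  rw [smul2_add_left, smul2_smul_left, smul2_sum_left]
  congr 1
  exact Finset.sum_congr rfl fun c _ => by rw [smul2_smul_left]

/-- the tangent vectors `∂_x f = φ_a z^m + ∑_y W(x,y) φ^b (-z)^{-n-1}` -/
noncomputable def E (F : List X.V → R') (x : X.V) : HH X R'
  | Int.ofNat m, a => if x = (m, a) then cst 1 else 0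
  | Int.negSucc j, a =>
      ((-1 : R') ^ (j + 1)) • ∑ b, algebraMap ℂ R' (X.η⁻¹ b a) • W F x (j, b)

lemma E_nat (F : List X.V → R') (x : X.V) (m : ℕ) (a : X.ι) :
    E F x (m : ℤ) a = if x = (m, a) then cst 1 else 0 := rfl

lemma E_neg (F : List X.V → R') (x : X.V) (j : ℕ) (a : X.ι) :
    E F x (Int.negSucc j) a =
      ((-1 : R') ^ (j + 1)) • ∑ b, algebraMap ℂ R' (X.η⁻¹ b a) • W F x (j, b) := rfl

/-- coefficients of `z E_x - E_{zx}` -/
noncomputable def gg (F : List X.V → R') (x : X.V) (c : X.ι) : List X.V → R' :=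
  ∑ d, algebraMap ℂ R' (X.η⁻¹ d c) • W F x (0, d)

lemma sum_ite_E (F : List X.V → R') (g : X.ι → List X.V → R') (m : ℕ) (a : X.ι) :
    (∑ c, mulR (E F (0, c)) (g c)) (m : ℤ) a = if m = 0 then g a else 0 := by
  simp only [Finset.sum_apply, mulR, E_nat]
  by_cases hm : m = 0
  · subst hm
    rw [Finset.sum_eq_single a]
    · simp only [if_true]
      rw [smul2_cst_left, one_smul]
    · intro b _ hb
      rw [if_neg (by simpa using hb), smul2_zero_left]
    · simp
  · rw [if_neg hm]
    refine Finset.sum_eq_zero fun c _ => ?_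
    rw [if_neg (by simp [Ne.symm hm]), smul2_zero_left]

lemma smul2_E_neg (F : List X.V → R') (x : X.V) (g : List X.V → R') (j : ℕ) (a : X.ι) :
    mulR (E F x) g (Int.negSucc j) a =
      ((-1 : R') ^ (j + 1)) • ∑ b, algebraMap ℂ R' (X.η⁻¹ b a) • smul2 X.par (W F x (j, b)) g := by
  unfold mulR
  rw [E_neg, smul2_smul_left, smul2_sum_left]
  congr 1
  exact Finset.sum_congr rfl fun b _ => by rw [smul2_smul_left]

lemma negSucc_sub_one (j : ℕ) : Int.negSucc j - 1 = Int.negSucc (j + 1) := by
  rw [Int.negSucc_eq, Int.negSucc_eq]; push_cast; ring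

lemma negSucc_succ_add_one (j : ℕ) : Int.negSucc (j + 1) + 1 = Int.negSucc j := by
  rw [Int.negSucc_eq, Int.negSucc_eq]; push_cast; ring

lemma zop_E {F : List X.V → R'} (h : IsG0 X F) (m : ℕ) (a : X.ι) :
    zop (E F (m, a)) = E F (m + 1, a) - ∑ c, mulR (E F (0, c)) (gg F (m, a) c) := by
  funext n a'
  match n with
  | Int.ofNat 0 =>
    have e1 : zop (E F (m, a)) (Int.ofNat 0) a' = E F (m, a) (Int.negSucc 0) a' := rfl
    have e2 := sum_ite_E F (gg F (m, a)) 0 a'
    have e3 : E F (m + 1, a) ((0 : ℕ) : ℤ) a' = 0 := by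
      rw [E_nat, if_neg (by simp)]
    rw [e1, E_neg]
    show _ = E F (m + 1, a) ((0 : ℕ) : ℤ) a'
      - (∑ c, mulR (E F (0, c)) (gg F (m, a) c)) ((0 : ℕ) : ℤ) a'
    rw [e2, e3, if_pos rfl]
    simp [gg]
  | Int.ofNat (k + 1) =>
    have e1 : zop (E F (m, a)) (Int.ofNat (k + 1)) a' = E F (m, a) (k : ℤ) a' := by
      rw [zop_apply]
      congr 1
      show ((k + 1 : ℕ) : ℤ) - 1 = k
      push_cast; ring
    have e2 := sum_ite_E F (gg F (m, a)) (k + 1) a'
    rw [e1]
    show _ = E F (m + 1, a) ((k + 1 : ℕ) : ℤ) a'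
      - (∑ c, mulR (E F (0, c)) (gg F (m, a) c)) ((k + 1 : ℕ) : ℤ) a'
    rw [e2, if_neg (Nat.succ_ne_zero k), E_nat, E_nat, sub_zero]
    simp
  | Int.negSucc j =>
    have e1 : zop (E F (m, a)) (Int.negSucc j) a' = E F (m, a) (Int.negSucc (j + 1)) a' := by
      rw [zop_apply, negSucc_sub_one]
    rw [e1, E_neg]
    simp only [Pi.sub_apply, Finset.sum_apply, E_neg]
    have e2 : ∀ c, mulR (E F (0, c)) (gg F (m, a) c) (Int.negSucc j) a'
        = ((-1 : R') ^ (j + 1)) • ∑ b, algebraMap ℂ R' (X.η⁻¹ b a') •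
          ∑ d, algebraMap ℂ R' (X.η⁻¹ d c) • smul2 X.par (W F (0, c) (j, b))
            (W F (m, a) (0, d)) := by
      intro c
      rw [smul2_E_neg]
      congr 1
      refine Finset.sum_congr rfl fun b _ => ?_
      rw [gg, smul2_sum_right]
      congr 1
      exact Finset.sum_congr rfl fun d _ => by rw [smul2_smul_right]
    rw [Finset.sum_congr rfl fun c _ => e2 c, ← Finset.smul_sum, Finset.sum_comm,
      ← smul_sub, ← Finset.sum_sub_distrib]
    simp only [← Finset.smul_sum, ← two_point h, ← smul_sub]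
    rw [pow_succ' _ (j + 1)]
    simp only [neg_mul, one_mul, neg_smul]
    rw [← smul_neg, ← Finset.sum_neg_distrib]
    congr 1
    refine Finset.sum_congr rfl fun b _ => ?_
    rw [← smul_neg]
    congr 1
    abel

variable (X R') in
/-- the tangent space -/
def T0 (F : List X.V → R') : Submodule R' (HH X R') :=
  Submodule.span R' {h | ∃ w g, h = mulR (E F w) g}

lemma mulR_mem (F : List X.V → R') (w : X.V) (g : List X.V → R') :
    mulR (E F w) g ∈ T0 X R' F := Submodule.subset_span ⟨w, g, rfl⟩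

lemma E_mem (F : List X.V → R') (w : X.V) : E F w ∈ T0 X R' F := by
  have := mulR_mem F w (cst 1)
  rwa [mulR_one] at this

lemma T0_mulR {F : List X.V → R'} {h : HH X R'} (hh : h ∈ T0 X R' F) (g : List X.V → R') :
    mulR h g ∈ T0 X R' F := by
  have : T0 X R' F ≤ (T0 X R' F).comap (mulRL g) := by
    unfold T0
    rw [Submodule.span_le]
    rintro _ ⟨w, g', rfl⟩
    show mulR (mulR (E F w) g') g ∈ T0 X R' F
    rw [mulR_mulR]
    exact mulR_mem F w _
  exact this hh

lemma T0_zop {F : List X.V → R'} (hF : IsG0 X F) {h : HH X R'} (hh : h ∈ T0 X R' F) :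
    zop h ∈ T0 X R' F := by
  have : T0 X R' F ≤ (T0 X R' F).comap zop := by
    conv_lhs => unfold T0
    rw [Submodule.span_le]
    rintro _ ⟨⟨m, a⟩, g, rfl⟩
    show zop (mulR (E F (m, a)) g) ∈ T0 X R' F
    rw [zop_mulR, zop_E hF]
    have e : mulR (E F (m + 1, a) - ∑ c, mulR (E F (0, c)) (gg F (m, a) c)) g
        = mulR (E F (m + 1, a)) g - ∑ c, mulR (mulR (E F (0, c)) (gg F (m, a) c)) g := by
      have := map_sub (mulRL g) (E F (m + 1, a)) (∑ c, mulR (E F (0, c)) (gg F (m, a) c))
      simpa [map_sum] using this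
    rw [e]
    refine Submodule.sub_mem _ (mulR_mem F _ _) (Submodule.sum_mem _ fun c _ => ?_)
    rw [mulR_mulR]
    exact mulR_mem F _ _
  exact this hh

end Vale.Agent.P269.H332
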