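import Vale.Agent.P269.H332.Pairing

/-! The operator `z l_0` preserves the tangent space (homogeneity). -/

set_option autoImplicit false

namespace Vale.Agent.P269.H332

open Vale.Agent.P269.H207 Finset

variable {X : Target} {R' : Type*} [CommRing R'] [Algebra ℂ R']

lemma br_one_zero (x : ℂ) : br 1 0 x = x := by simp [br]
lemma br_one_one (x : ℂ) : br 1 1 x = 1 := by
  simp [br, Polynomial.coeff_X, Polynomial.coeff_C]

lemma AK_one_zero (a : X.ι) :
    AK X R' 1 (0, a) = Finsupp.single (0, a) (algebraMap ℂ R' (X.b a)) := by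
  unfold AK
  rw [Finset.sum_range_succ, Finset.sum_range_one]
  rw [Finset.sum_eq_single a]
  · simp [br_one_zero]
  · intro b _ hb
    simp [br_one_zero, Matrix.one_apply_ne hb.symm]
  · simp

lemma AK_one_succ (m : ℕ) (a : X.ι) :
    AK X R' 1 (m + 1, a) = Finsupp.single (m + 1, a) (algebraMap ℂ R' (X.b a + (m + 1)))
      + ∑ b, Finsupp.single (m, b) (algebraMap ℂ R' (X.R a b)) := by
  unfold AK
  rw [Finset.sum_range_succ, Finset.sum_range_one]
  congr 1
  · rw [Finset.sum_eq_single a]
    · simp [br_one_zero]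
    · intro b _ hb
      simp [br_one_zero, Matrix.one_apply_ne hb.symm]
    · simp
  · refine Finset.sum_congr rfl fun b _ => ?_
    simp [br_one_one]

lemma CK_one (x y : X.V) : CK X R' 1 x y
    = if x.1 = 0 ∧ y.1 = 0 then algebraMap ℂ R' ((X.R * X.η) x.2 y.2) else 0 := by
  unfold CK
  simp

lemma AK_par (K : ℕ) : EvenOp X.par (AK X R' K) := by
  intro x y hy
  rw [Finsupp.mem_support_iff, AK, Finsupp.finset_sum_apply] at hy
  obtain ⟨i, -, hi⟩ := Finset.exists_ne_zero_of_sum_ne_zero hy
  rw [Finsupp.finset_sum_apply] at hi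
  obtain ⟨b, -, hb⟩ := Finset.exists_ne_zero_of_sum_ne_zero hi
  split_ifs at hb with hc
  · rw [Finsupp.single_apply] at hb
    split_ifs at hb with he
    · have h1 : (X.R ^ i) x.2 b ≠ 0 := by
        intro h
        rw [h, mul_zero, map_zero] at hb
        exact hb rfl
      have h2 := Rpow_par X i _ _ h1
      rw [← he, par_eq, par_eq]
      exact h2.symm
    · exact absurd rfl hb
  · exact absurd rfl hb

/-- the Euler derivation -/
noncomputable def Dv (f : List X.V → R') : List X.V → R' :=
  vf (AK X R' 1) f - dv (AK X R' 1 (1, X.one)) f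

lemma Dv_W {F : List X.V → R'} (hF : IsG0 X F) (x y : X.V) :
    Dv (W F x y) = -(dv (AK X R' 1 y) (dd x F) + dd y (dv (AK X R' 1 x) F)
      + cst (CK X R' 1 x y)) := by
  have h0 := hF.euler
  have h1 : -dv (AK X R' 1 (1, X.one)) (dd x F) + (dv (AK X R' 1 x) F
      + vf (AK X R' 1) (dd x F)) + lin (CK X R' 1 x) = 0 := by
    have := congrArg (dd x) h0
    rw [dd_add, dd_add, dd_neg, dd_quad, dd_vf, dd_zero,
      dd_dv_odd (par := X.par) hF.symm x 0 _ (fun y hy => by
        rw [AK_par 1 _ y hy, one_par'])] at this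
    simpa using this
  have h2 := congrArg (dd y) h1
  rw [dd_add, dd_add, dd_neg, dd_lin, dd_add, dd_vf, dd_zero,
    dd_dv_odd (par := X.par) (hF.symm.dd x) y 0 _ (fun y hy => by
      rw [AK_par 1 _ y hy, one_par'])] at h2
  simp only [mul_zero, pow_zero, one_smul] at h2
  unfold Dv W
  rw [← sub_eq_zero, ← h2]
  abel

/-- componentwise Euler derivative of the tangent vectors -/
noncomputable def DE (F : List X.V → R') (x : X.V) : HH X R'
  | Int.ofNat _, _ => 0
  | Int.negSucc j, a =>
      ((-1 : R') ^ (j + 1)) • ∑ b, algebraMap ℂ R' (X.η⁻¹ b a) • Dv (W F x (j, b))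

lemma sum_apply_HH (v : X.V →₀ R') (g : X.V → HH X R') (n : ℤ) (a : X.ι) :
    (v.sum fun p c => c • g p) n a = v.sum fun p c => c • g p n a := by
  simp only [Finsupp.sum, Finset.sum_apply, Pi.smul_apply]

lemma sum_cst (v : X.V →₀ R') (m : ℕ) (a : X.ι) :
    (v.sum fun p c => c • (if p = (m, a) then (cst 1 : List X.V → R') else 0))
      = v (m, a) • cst 1 := by
  classical
  rw [Finsupp.sum, Finset.sum_eq_single (m, a)]
  · simp
  · intro b _ hb
    rw [if_neg hb, smul_zero]
  · intro h
    rw [Finsupp.notMem_support_iff.1 h, zero_smul]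

lemma dd_dv_eq (v : X.V →₀ R') (F : List X.V → R') (y : X.V) :
    dd y (dv v F) = v.sum fun p c => c • W F p y := by
  rw [dv_eq_sum, Finsupp.sum, dd_sum]
  rfl

/-- contraction identity: `∑_b η^{ba} η_{cb} = δ` -/
lemma al_contr (a c : X.ι) :
    ∑ b, algebraMap ℂ R' (X.η⁻¹ b a) * algebraMap ℂ R' ((X.R * X.η) c b)
      = algebraMap ℂ R' (X.R c a) := by
  have h : (X.R * X.η) * X.η⁻¹ = X.R := by rw [mul_assoc, mul_inv, mul_one]
  have h2 := congrFun (congrFun h c) a
  rw [Matrix.mul_apply] at h2
  rw [← h2, map_sum]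
  exact Finset.sum_congr rfl fun b _ => by rw [map_mul, mul_comm]

lemma l0op_E {F : List X.V → R'} (hF : IsG0 X F) (x : X.V) :
    l0op (E F x) = DE F x + (AK X R' 1 x).sum fun p c => c • E F p := by
  funext n a
  match n with
  | Int.ofNat k =>
    show l0op (E F x) (k : ℤ) a = DE F x (Int.ofNat k) a + ((AK X R' 1 x).sum fun p c =>
      c • E F p) (k : ℤ) a
    rw [l0op_apply, sum_apply_HH]
    simp only [E_nat]
    rw [sum_cst]
    have e1 : DE F x (Int.ofNat k) a = 0 := rfl
    have e2 : ∀ c, E F x ((k : ℤ) + 1) c = if x = (k + 1, c) then cst 1 else 0 := by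
      intro c
      have := E_nat F x (k + 1) c
      rw [← this]
      congr 1
    rw [e1, zero_add]
    simp only [e2]
    rcases x with ⟨m, a'⟩
    cases m with
    | zero =>
      rw [AK_one_zero]
      have : ∀ c, ¬ (((0, a') : X.V) = (k + 1, c)) := by
        intro c h
        have := congrArg Prod.fst h
        simp at this
      simp only [this, if_false, smul_zero, Finset.sum_const_zero, add_zero]
      by_cases h : ((0, a') : X.V) = (k, a)
      · rw [if_pos h, ← h, Finsupp.single_eq_same]
        have h1 := congrArg Prod.fst h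
        have h2 := congrArg Prod.snd h
        simp only at h1 h2
        subst h2
        rw [← h1]
        simp
      · rw [if_neg h, smul_zero, Finsupp.single_apply, if_neg h, zero_smul]
    | succ m =>
      rw [AK_one_succ, Finsupp.add_apply, add_smul]
      congr 1
      · by_cases h : ((m + 1, a') : X.V) = (k, a)
        · rw [if_pos h, ← h, Finsupp.single_eq_same]
          have h1 := congrArg Prod.fst h
          have h2 := congrArg Prod.snd h
          simp only at h1 h2
          subst h2
          rw [← h1]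
          push_cast
          rfl
        · rw [if_neg h, smul_zero, Finsupp.single_apply, if_neg h, zero_smul]
      · rw [Finsupp.finset_sum_apply]
        by_cases hm : m = k
        · subst hm
          rw [Finset.sum_eq_single a', Finset.sum_eq_single a]
          · simp
          · intro b _ hb
            rw [Finsupp.single_apply, if_neg (by simpa using hb)]
          · simp
          · intro b _ hb
            rw [if_neg (by simpa using Ne.symm hb), smul_zero]
          · simp
        · rw [Finset.sum_eq_zero, Finset.sum_eq_zero, zero_smul]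
          · intro b _
            rw [Finsupp.single_apply, if_neg (by simp [hm])]
          · intro b _
            rw [if_neg (by simp [hm]), smul_zero]
  | Int.negSucc j =>
    rw [l0op_apply, Pi.add_apply, Pi.add_apply, sum_apply_HH]
    simp only [E_neg]
    have e0 : DE F x (Int.negSucc j) a =
      ((-1 : R') ^ (j + 1)) • ∑ b, algebraMap ℂ R' (X.η⁻¹ b a) • Dv (W F x (j, b)) := rfl
    rw [e0]
    -- the last term
    have e1 : ((AK X R' 1 x).sum fun p c => c • ((-1 : R') ^ (j + 1)) •
        ∑ b, algebraMap ℂ R' (X.η⁻¹ b a) • W F p (j, b))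
        = ((-1 : R') ^ (j + 1)) • ∑ b, algebraMap ℂ R' (X.η⁻¹ b a) •
          dd (j, b) (dv (AK X R' 1 x) F) := by
      simp only [dd_dv_eq, Finsupp.sum, Finset.smul_sum]
      rw [Finset.sum_comm]
      refine Finset.sum_congr rfl fun b _ => Finset.sum_congr rfl fun p _ => ?_
      simp only [smul_smul]
      congr 1
      ring
    rw [e1, ← smul_add, ← Finset.sum_add_distrib]
    have e2 : ∀ b, algebraMap ℂ R' (X.η⁻¹ b a) • Dv (W F x (j, b))
        + algebraMap ℂ R' (X.η⁻¹ b a) • dd (j, b) (dv (AK X R' 1 x) F)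
        = -(algebraMap ℂ R' (X.η⁻¹ b a) • (dv (AK X R' 1 (j, b)) (dd x F)
          + cst (CK X R' 1 x (j, b)))) := by
      intro b
      rw [Dv_W hF]
      module
    rw [Finset.sum_congr rfl fun b _ => e2 b]
    -- diagonal part
    have e3 : ∀ b, algebraMap ℂ R' (X.b a + (Int.negSucc j : ℤ)) •
        (algebraMap ℂ R' (X.η⁻¹ b a) • W F x (j, b))
        = -(algebraMap ℂ R' (X.η⁻¹ b a) • (algebraMap ℂ R' (X.b b + j) • W F x (j, b))) := by
      intro b
      by_cases hb : X.η⁻¹ b a = 0
      · simp [hb]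
      · have h1 := b_inv X b a hb
        have h2 : X.b a + ((Int.negSucc j : ℤ) : ℂ) = -(X.b b + j) := by
          rw [Int.negSucc_eq]
          push_cast
          linear_combination h1
        rw [h2, map_neg]
        module
    have e4 : algebraMap ℂ R' (X.b a + (Int.negSucc j : ℤ)) • (((-1 : R') ^ (j + 1)) •
        ∑ b, algebraMap ℂ R' (X.η⁻¹ b a) • W F x (j, b))
        = ((-1 : R') ^ (j + 1)) • ∑ b, -(algebraMap ℂ R' (X.η⁻¹ b a) •
          (algebraMap ℂ R' (X.b b + j) • W F x (j, b))) := by
      rw [smul_comm, Finset.smul_sum]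
      congr 1
      exact Finset.sum_congr rfl fun b _ => e3 b
    rw [e4]
    cases j with
    | zero =>
      have e5 : ∀ c, E F x (Int.negSucc 0 + 1) c = if x = (0, c) then cst 1 else 0 :=
        fun c => rfl
      simp only [e5, zero_add, pow_one, AK_one_zero, dv_single, CK_one]
      by_cases hx : x.1 = 0
      · rcases x with ⟨m, a'⟩
        simp only at hx
        subst hx
        have hs : ∑ c, algebraMap ℂ R' (X.R c a) •
            (if ((0, a') : X.V) = (0, c) then (cst 1 : List X.V → R') else 0)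
            = algebraMap ℂ R' (X.R a' a) • cst 1 := by
          rw [Finset.sum_eq_single a']
          · rw [if_pos rfl]
          · intro c _ hc
            rw [if_neg (by simpa using Ne.symm hc), smul_zero]
          · simp
        rw [hs]
        simp only [if_true, and_self]
        have e6 : algebraMap ℂ R' (X.R a' a) • (cst 1 : List X.V → R')
            = ∑ b, algebraMap ℂ R' (X.η⁻¹ b a) • cst (algebraMap ℂ R' ((X.R * X.η) a' b)) := by
          rw [← al_contr, Finset.sum_smul]
          refine Finset.sum_congr rfl fun b _ => ?_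
          funext L
          cases L <;> simp
        rw [e6]
        simp only [smul_add, neg_add, Finset.sum_add_distrib, Finset.sum_neg_distrib,
          neg_smul, one_smul, neg_neg]
        simp [W]
      · have e6 : ∀ c, ¬ (x = (0, c)) := by
          intro c h
          exact hx (by rw [h])
        simp only [e6, if_false, smul_zero, Finset.sum_const_zero, add_zero, hx, false_and]
        congr 1
        refine Finset.sum_congr rfl fun b _ => ?_
        have : (cst 0 : List X.V → R') = 0 := by
          funext L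
          cases L <;> simp
        rw [this, add_zero]
        simp [W]
    | succ j =>
      have e5 : ∀ c, E F x (Int.negSucc (j + 1) + 1) c = ((-1 : R') ^ (j + 1)) •
          ∑ b, algebraMap ℂ R' (X.η⁻¹ b c) • W F x (j, b) := by
        intro c
        rw [negSucc_succ_add_one, E_neg]
      simp only [e5]
      have e6 : ∑ c, algebraMap ℂ R' (X.R c a) • ((-1 : R') ^ (j + 1)) •
          ∑ b, algebraMap ℂ R' (X.η⁻¹ b c) • W F x (j, b)
          = ((-1 : R') ^ (j + 1)) • ∑ b, algebraMap ℂ R' (X.η⁻¹ b a) •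
            ∑ c, algebraMap ℂ R' (X.R b c) • W F x (j, c) := by
        have e7 : ∀ b, (∑ c, algebraMap ℂ R' (X.R c a) * algebraMap ℂ R' (X.η⁻¹ b c))
            = ∑ c, algebraMap ℂ R' (X.η⁻¹ c a) * algebraMap ℂ R' (X.R c b) := by
          intro b
          have := congrArg (algebraMap ℂ R') (inv_R_apply X b a)
          simp only [map_sum, map_mul] at this
          rw [← Finset.sum_congr rfl fun c _ => mul_comm _ _, this]
          exact Finset.sum_congr rfl fun c _ => mul_comm _ _
        simp only [Finset.smul_sum, smul_smul]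
        rw [Finset.sum_comm]
        conv_rhs => rw [Finset.sum_comm]
        refine Finset.sum_congr rfl fun b _ => ?_
        rw [← Finset.sum_smul, ← Finset.sum_smul]
        congr 1
        have := congrArg (fun t => (-1 : R') ^ (j + 1) * t) (e7 b)
        simp only [Finset.mul_sum] at this
        exact (Finset.sum_congr rfl fun c _ => by ring).trans
          (this.trans (Finset.sum_congr rfl fun c _ => by ring))
      rw [e6, pow_succ' _ (j + 1)]
      simp only [neg_mul, one_mul, neg_smul, Finset.sum_neg_distrib, smul_neg, neg_neg]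
      rw [← smul_add, ← Finset.sum_add_distrib]
      congr 1
      refine Finset.sum_congr rfl fun b _ => ?_
      rw [AK_one_succ, dv_add_left, dv_single, dv_finsetSum, CK_one, if_neg (by simp)]
      simp only [dv_single]
      have : (cst 0 : List X.V → R') = 0 := by
        funext L
        cases L <;> simp
      rw [this, add_zero, smul_add]
      congr 2
      push_cast
      rfl

/-- TRR for the Euler derivation -/
lemma trrD {F : List X.V → R'} (hF : IsG0 X F) (x : X.V) (n : ℕ) (b : X.ι) :
    Dv (W F x (n + 1, b)) = ∑ c, ∑ d, algebraMap ℂ R' (X.η⁻¹ d c) •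
      smul2 X.par (W F (0, c) (n, b)) (Dv (W F x (0, d))) := by
  rcases x with ⟨m, a⟩
  have hS : ∀ y : X.V, SSym X.par (W F (m, a) y) := fun y => (hF.symm.dd _).dd _
  have key : ∀ (v : X.V →₀ R') (k : ℕ), (∀ y ∈ v.support, X.par y % 2 = k % 2) →
      dv v (W F (m, a) (n + 1, b)) = ∑ c, ∑ d, algebraMap ℂ R' (X.η⁻¹ d c) •
        smul2 X.par (tw X.par k (W F (0, c) (n, b))) (dv v (W F (m, a) (0, d))) := by
    intro v k hv
    have e : dv v (W F (m, a) (n + 1, b)) = v.sum fun y r => ∑ c, ∑ d,
        algebraMap ℂ R' (X.η⁻¹ d c) •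
        smul2 X.par (tw X.par k (W F (0, c) (n, b))) (r • dd y (W F (m, a) (0, d))) := by
      rw [dv_eq_sum]
      refine Finset.sum_congr rfl fun y hy => ?_
      simp only
      rw [trrR hF, Finset.smul_sum]
      refine Finset.sum_congr rfl fun c _ => ?_
      rw [Finset.smul_sum]
      refine Finset.sum_congr rfl fun d _ => ?_
      rw [tw_congr (hv y hy), smul2_smul_right, smul_comm]
    rw [e, Finsupp.sum, Finset.sum_comm]
    refine Finset.sum_congr rfl fun c _ => ?_
    rw [Finset.sum_comm]
    refine Finset.sum_congr rfl fun d _ => ?_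
    rw [← Finset.smul_sum, ← smul2_sum_right, dv_eq_sum]
    rfl
  unfold Dv
  rw [vf_eq_tt (AK_par 1) (hS _), tt_congr fun y => key (AK X R' 1 y) (X.par y) (AK_par 1 y),
    tt_sum, key (AK X R' 1 (1, X.one)) 0 (fun y hy => by rw [AK_par 1 _ y hy, one_par']),
    ← Finset.sum_sub_distrib]
  refine Finset.sum_congr rfl fun c _ => ?_
  rw [tt_sum, ← Finset.sum_sub_distrib]
  refine Finset.sum_congr rfl fun d _ => ?_
  rw [tt_smul, ← tt_mul_left, ← vf_eq_tt (AK_par 1) (hS _), tw_even rfl, ← smul_sub]
  congr 1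
  rw [sub_eq_add_neg, ← smul2_neg_right, ← smul2_add_right, sub_eq_add_neg]

lemma zop_DE {F : List X.V → R'} (hF : IsG0 X F) (x : X.V) :
    zop (DE F x) = -∑ c, mulR (E F (0, c))
      (∑ d, algebraMap ℂ R' (X.η⁻¹ d c) • Dv (W F x (0, d))) := by
  funext n a'
  match n with
  | Int.ofNat 0 =>
    have e1 : zop (DE F x) (Int.ofNat 0) a' = DE F x (Int.negSucc 0) a' := rfl
    have e2 := sum_ite_E F (fun c => ∑ d, algebraMap ℂ R' (X.η⁻¹ d c) • Dv (W F x (0, d))) 0 a'
    rw [e1]
    show _ = -(∑ c, mulR (E F (0, c)) (∑ d, algebraMap ℂ R' (X.η⁻¹ d c) • Dv (W F x (0, d))))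
      ((0 : ℕ) : ℤ) a'
    rw [e2, if_pos rfl]
    show ((-1 : R') ^ (0 + 1)) • ∑ b, algebraMap ℂ R' (X.η⁻¹ b a') • Dv (W F x (0, b)) = _
    simp
  | Int.ofNat (k + 1) =>
    have e1 : zop (DE F x) (Int.ofNat (k + 1)) a' = 0 := by
      rw [zop_apply]
      have : Int.ofNat (k + 1) - 1 = Int.ofNat k := by
        show ((k + 1 : ℕ) : ℤ) - 1 = k
        push_cast; ring
      rw [this]
      rfl
    have e2 := sum_ite_E F (fun c => ∑ d, algebraMap ℂ R' (X.η⁻¹ d c) • Dv (W F x (0, d)))
      (k + 1) a'
    rw [e1]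
    show _ = -(∑ c, mulR (E F (0, c)) (∑ d, algebraMap ℂ R' (X.η⁻¹ d c) • Dv (W F x (0, d))))
      ((k + 1 : ℕ) : ℤ) a'
    rw [e2, if_neg (Nat.succ_ne_zero k), neg_zero]
  | Int.negSucc j =>
    have e1 : zop (DE F x) (Int.negSucc j) a' = DE F x (Int.negSucc (j + 1)) a' := by
      rw [zop_apply, negSucc_sub_one]
    rw [e1]
    show ((-1 : R') ^ (j + 1 + 1)) • ∑ b, algebraMap ℂ R' (X.η⁻¹ b a') • Dv (W F x (j + 1, b))
      = -(∑ c, mulR (E F (0, c)) (∑ d, algebraMap ℂ R' (X.η⁻¹ d c) • Dv (W F x (0, d))))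
        (Int.negSucc j) a'
    have e2 : ∀ c, mulR (E F (0, c)) (∑ d, algebraMap ℂ R' (X.η⁻¹ d c) • Dv (W F x (0, d)))
        (Int.negSucc j) a'
        = ((-1 : R') ^ (j + 1)) • ∑ b, algebraMap ℂ R' (X.η⁻¹ b a') •
          ∑ d, algebraMap ℂ R' (X.η⁻¹ d c) • smul2 X.par (W F (0, c) (j, b))
            (Dv (W F x (0, d))) := by
      intro c
      rw [smul2_E_neg]
      congr 1
      refine Finset.sum_congr rfl fun b _ => ?_
      rw [smul2_sum_right]
      congr 1
      exact Finset.sum_congr rfl fun d _ => by rw [smul2_smul_right]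
    simp only [Finset.sum_apply]
    rw [Finset.sum_congr rfl fun c _ => e2 c, ← Finset.smul_sum, Finset.sum_comm]
    simp only [← Finset.smul_sum, ← trrD hF]
    rw [pow_succ' _ (j + 1)]
    simp only [neg_mul, one_mul, neg_smul]

lemma T0_zl0 {F : List X.V → R'} (hF : IsG0 X F) {h : HH X R'} (hh : h ∈ T0 X R' F) :
    zop (l0op h) ∈ T0 X R' F := by
  have : T0 X R' F ≤ (T0 X R' F).comap (zop.comp l0op) := by
    conv_lhs => unfold T0
    rw [Submodule.span_le]
    rintro _ ⟨x, g, rfl⟩
    show zop (l0op (mulR (E F x) g)) ∈ T0 X R' F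
    rw [l0op_mulR, zop_mulR]
    apply T0_mulR
    rw [l0op_E hF, map_add, zop_DE hF]
    refine Submodule.add_mem _ (Submodule.neg_mem _ (Submodule.sum_mem _ fun c _ =>
      mulR_mem F _ _)) ?_
    rw [Finsupp.sum, map_sum]
    refine Submodule.sum_mem _ fun p _ => ?_
    rw [map_smul]
    exact Submodule.smul_mem _ _ (T0_zop hF (E_mem F p))
  exact this hh

/-- `l_k` for `K = k + 1`: `l_{-1} = z⁻¹`, `l_{k+1} = l_0 z l_k` -/
noncomputable def LK : ℕ → HH X R' →ₗ[R'] HH X R'
  | 0 => ziop
  | K + 1 => l0op.comp (zop.comp (LK K))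

lemma LK_zero (h : HH X R') : LK 0 h = ziop h := rfl
lemma LK_succ (K : ℕ) (h : HH X R') : LK (K + 1) h = l0op (zop (LK K h)) := rfl

lemma T0_zLK {F : List X.V → R'} (hF : IsG0 X F) (K : ℕ) {h : HH X R'}
    (hh : h ∈ T0 X R' F) : zop (LK K h) ∈ T0 X R' F := by
  induction K with
  | zero => rwa [LK_zero, zop_ziop]
  | succ K ih =>
    rw [LK_succ]
    exact T0_zl0 hF ih

/-- `l_k` maps the tangent vectors to the orthogonal complement of the point -/
theorem good_LK {F : List X.V → R'} (hF : IsG0 X F) (K : ℕ) (x : X.V) :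
    Good F (LK K (E F x)) := by
  have := good_ziop hF (T0_zLK hF K (E_mem F x))
  rwa [ziop_zop] at this

end Vale.Agent.P269.H332
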