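import Vale.Agent.P269.H332.Match
import Vale.Agent.P269.H207.Main

/-! The genus zero Virasoro constraints for systems of Gromov-Witten correlators. -/

set_option autoImplicit false

namespace Vale.Agent.P269.H332

open Vale.Agent.P269.H207 Finset

variable {X : Target}

/-- coefficient of `Q^d` -/
noncomputable def co (d : ℕ) (f : List X.V → PowerSeries ℂ) : List X.V → ℂ :=
  fun L => PowerSeries.coeff d (f L)

lemma alg_eq (r : ℂ) : algebraMap ℂ (PowerSeries ℂ) r = PowerSeries.C r := rfl

lemma coeff_alg_mul (d : ℕ) (r : ℂ) (a : PowerSeries ℂ) :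
    PowerSeries.coeff d (algebraMap ℂ (PowerSeries ℂ) r * a) = r * PowerSeries.coeff d a := by
  rw [alg_eq, PowerSeries.coeff_C_mul]

lemma coeff_sgn_mul (d n : ℕ) (a : PowerSeries ℂ) :
    PowerSeries.coeff d ((-1) ^ n * a) = (-1) ^ n * PowerSeries.coeff d a := by
  have : ((-1 : PowerSeries ℂ)) ^ n = algebraMap ℂ (PowerSeries ℂ) ((-1) ^ n) := by
    rw [map_pow, map_neg, map_one]
  rw [this, coeff_alg_mul]

lemma co_dv (d K : ℕ) (x : X.V) (f : List X.V → PowerSeries ℂ) :
    co d (dv (AK X (PowerSeries ℂ) K x) f) = dv (AK X ℂ K x) (co d f) := by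
  funext L
  unfold co AK
  rw [dv_finsetSum, dv_finsetSum, Finset.sum_apply, Finset.sum_apply, map_sum]
  refine Finset.sum_congr rfl fun i _ => ?_
  rw [dv_finsetSum, dv_finsetSum, Finset.sum_apply, Finset.sum_apply, map_sum]
  refine Finset.sum_congr rfl fun b _ => ?_
  split_ifs
  · simp only [dv_single, Pi.smul_apply, smul_eq_mul, dd_apply, coeff_alg_mul]
    rfl
  · simp

lemma co_vf (d K : ℕ) (f : List X.V → PowerSeries ℂ) :
    co d (vf (AK X (PowerSeries ℂ) K) f) = vf (AK X ℂ K) (co d f) := by
  funext L
  induction L generalizing f with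
  | nil => simp [co]
  | cons x L ih =>
    have h1 := congrFun (co_dv d K x f) L
    have h2 := ih (dd x f)
    rw [vf_cons, ← h1]
    unfold co at h1 h2 ⊢
    rw [vf_cons, map_add]
    congr 1

lemma co_quad (d K : ℕ) (L : List X.V) :
    co d (quad (CK X (PowerSeries ℂ) K)) L = if d = 0 then quad (CK X ℂ K) L else 0 := by
  unfold co
  match L with
  | [] => simp
  | [x] => simp
  | [x, y] =>
    rw [quad_two, quad_two]
    unfold CK
    split_ifs with h1 h2 h2
    · rw [alg_eq, h2]
      simp
    · rw [alg_eq, PowerSeries.coeff_C, if_neg h2]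
    · simp
    · simp
  | x :: y :: z :: L => simp

lemma co_smul2 (d : ℕ) (f g : List X.V → PowerSeries ℂ) (L : List X.V) :
    PowerSeries.coeff d (smul2 X.par f g L)
      = ∑ e ∈ antidiagonal d, smul2 X.par (co e.1 f) (co e.2 g) L := by
  induction L generalizing f g with
  | nil => rw [smul2_nil, PowerSeries.coeff_mul]; rfl
  | cons x L ih =>
    rw [smul2_cons, map_add, ih, ih, ← Finset.sum_add_distrib]
    refine Finset.sum_congr rfl fun e _ => ?_
    rw [smul2_cons]
    congr 2
    funext M
    simp only [co, tw_apply, coeff_sgn_mul]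

lemma vf_id {α R : Type*} [CommRing R] (f : List α → R) (L : List α) :
    vf (fun x => Finsupp.single x 1) f L = L.length * f L := by
  induction L generalizing f with
  | nil => simp
  | cons x L ih =>
    rw [vf_cons, dv_single, ih, one_smul, dd_apply, List.length_cons]
    push_cast
    ring

variable {GW : ℕ → ℕ → List X.V → ℂ}

lemma co_pot0 (d : ℕ) : co d (pot0 GW) = GW 0 d := by
  funext L
  simp [co, pot0]

theorem isG0_pot0 (h : IsGW X GW) : IsG0 X (pot0 GW) where
  symm := by
    intro K x y L
    ext d
    rw [coeff_sgn_mul]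
    simp only [pot0, PowerSeries.coeff_mk]
    exact h.symm 0 d K x y L
  even := by
    intro L hL
    ext d
    simp only [pot0, PowerSeries.coeff_mk, map_zero]
    by_contra hne
    apply hL
    have h1 := h.dim_p 0 d L hne
    have h2 := h.dim_q 0 d L hne
    have h3 : (parL X.par L : ℤ)
        = (L.map fun x => (x.1 : ℤ) + X.p x.2).sum + (L.map fun x => (x.1 : ℤ) + X.q x.2).sum
          - 2 * (L.map fun x => (x.1 : ℤ)).sum := by
      clear h1 h2 hne hL
      induction L with
      | nil => simp
      | cons x L ih =>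
        rw [parL_cons, List.map_cons, List.map_cons, List.map_cons, List.sum_cons,
          List.sum_cons, List.sum_cons]
        push_cast
        rw [ih]
        unfold Target.par
        push_cast
        ring
    omega
  string := by
    funext L
    ext d
    have h1 := h.string 0 d L
    have h2 := congrFun (co_vf d 0 (pot0 GW)) L
    have h3 := co_quad (X := X) d 0 L
    rw [co_pot0, vf_low] at h2
    have e1 : PowerSeries.coeff d (dd (0, X.one) (pot0 GW) L) = GW 0 d ((0, X.one) :: L) := by
      simp [pot0]
    rw [e1, h1, Pi.add_apply, map_add]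
    unfold co at h2 h3
    rw [h2, h3]
    simp
  dilaton := by
    funext L
    ext d
    have h1 := h.dilaton 0 d L
    have e1 : PowerSeries.coeff d (dd (1, X.one) (pot0 GW) L) = GW 0 d ((1, X.one) :: L) := by
      simp [pot0]
    rw [e1, h1, Pi.add_apply, vf_id, Pi.smul_apply, smul_eq_mul, ← add_mul]
    have e2 : (-2 + (L.length : PowerSeries ℂ)) = algebraMap ℂ (PowerSeries ℂ)
        (-2 + (L.length : ℂ)) := by
      rw [map_add, map_neg, map_natCast, map_ofNat]
    rw [e2, coeff_alg_mul]
    simp [pot0]
  euler := by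
    funext L
    ext d
    have h1 := H707.L0 X h 0 d L
    have h2 := congrFun (co_vf d 1 (pot0 GW)) L
    have h3 := co_quad (X := X) d 1 L
    have h4 := congrFun (co_dv d 1 (1, X.one) (pot0 GW)) L
    rw [co_pot0] at h2 h4
    unfold co at h2 h3 h4
    rw [Pi.add_apply, Pi.add_apply, Pi.neg_apply, map_add, map_add, map_neg, h2, h3, h4,
      Pi.zero_apply, map_zero]
    simpa using h1
  trr := by
    intro m a x y
    funext L
    ext d
    have h1 := congrFun (h.trr d m a x y) L
    have e1 : PowerSeries.coeff d (dd y (dd x (dd (m + 1, a) (pot0 GW))) L)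
        = dd y (dd x (dd (m + 1, a) (GW 0 d))) L := by
      simp [pot0]
    rw [e1, h1]
    simp only [Finset.sum_apply, Pi.smul_apply, smul_eq_mul, map_sum, coeff_alg_mul, co_smul2,
      Finset.mul_sum]
    rw [Finset.sum_comm]
    refine Finset.sum_congr rfl fun c _ => ?_
    rw [Finset.sum_comm]
    refine Finset.sum_congr rfl fun c' _ => Finset.sum_congr rfl fun e _ => ?_
    congr 2
    · funext M
      simp only [co, tw_apply, coeff_sgn_mul, dd_apply, pot0, PowerSeries.coeff_mk]
    · funext M
      simp only [co, dd_apply, pot0, PowerSeries.coeff_mk]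

/-- the genus zero Virasoro constraints, for all `k ≥ -1`, all degrees and all insertions -/
theorem genus0 (h : IsGW X GW) (K : ℕ) : z0 X K (pot0 GW) = 0 :=
  zK_eq_zero (isG0_pot0 h) K

/-- The Virasoro constraints for targets of dimension at least 3 with nef canonical class. -/
theorem Vir_nef_full (h : IsGW X GW) (hD : 3 ≤ X.D) (hc : X.c1 ≤ 0) (K : ℕ)
    {Z : List X.V → Nov} (hZ : IsExp X (potential X GW) Z) : Vir X K Z = 0 :=
  Vir_nef h hD hc K (genus0 h K) hZ

end Vale.Agent.P269.H332
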