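import Vale.Agent.P269.H332.Tay

/-! Matrix identities for the Poincare pairing and `c_1`. -/

set_option autoImplicit false

namespace Vale.Agent.P269.H332

open Vale.Agent.P269.H207 Finset

variable (X : Target)

lemma eta_unit : IsUnit X.η := (Matrix.isUnit_iff_isUnit_det _).2 X.η_nondeg

lemma inv_mul : X.η⁻¹ * X.η = 1 := Matrix.nonsing_inv_mul _ X.η_nondeg
lemma mul_inv : X.η * X.η⁻¹ = 1 := Matrix.mul_nonsing_inv _ X.η_nondeg

lemma inv_mul_apply (a b : X.ι) : ∑ c, X.η⁻¹ a c * X.η c b = if a = b then 1 else 0 := by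
  have := congrFun (congrFun (inv_mul X) a) b
  simpa [Matrix.mul_apply, Matrix.one_apply] using this

lemma mul_inv_apply (a b : X.ι) : ∑ c, X.η a c * X.η⁻¹ c b = if a = b then 1 else 0 := by
  have := congrFun (congrFun (mul_inv X) a) b
  simpa [Matrix.mul_apply, Matrix.one_apply] using this

/-- type constraint of the inverse matrix, abstract version -/
lemma inv_type_aux (f : X.ι → ℕ) (hf : ∀ a b, X.η a b ≠ 0 → f a + f b = X.D) (a b : X.ι)
    (h : X.η⁻¹ a b ≠ 0) : f a + f b = X.D := by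
  -- `diag(2^f) η diag(2^f) = 2^D η`
  set P : Matrix X.ι X.ι ℂ := Matrix.diagonal fun a => (2 : ℂ) ^ f a with hP
  have h1 : P * X.η * P = (2 : ℂ) ^ X.D • X.η := by
    ext i j
    rw [Matrix.mul_diagonal, Matrix.diagonal_mul, Matrix.smul_apply, smul_eq_mul]
    by_cases hij : X.η i j = 0
    · simp [hij]
    · rw [← hf i j hij, pow_add]; ring
  have h2 : P * X.η⁻¹ * P = (2 : ℂ) ^ X.D • X.η⁻¹ := by
    -- multiply `h1` by inverses
    have hPu : IsUnit P.det := by
      rw [hP, Matrix.det_diagonal]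
      exact (Finset.prod_ne_zero_iff.2 fun i _ => pow_ne_zero _ two_ne_zero).isUnit
    have h3 : P⁻¹ * X.η⁻¹ * P⁻¹ = ((2 : ℂ) ^ X.D)⁻¹ • X.η⁻¹ := by
      have h4 : (P * X.η * P)⁻¹ = ((2 : ℂ) ^ X.D • X.η)⁻¹ := by rw [h1]
      rw [Matrix.mul_inv_rev, Matrix.mul_inv_rev, ← mul_assoc] at h4
      rw [h4]
      apply Matrix.inv_eq_left_inv
      rw [Matrix.smul_mul, Matrix.mul_smul, smul_smul, inv_mul, inv_mul_cancel₀, one_smul]
      exact pow_ne_zero _ two_ne_zero
    have h5 : P * P⁻¹ = 1 := Matrix.mul_nonsing_inv _ hPu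
    have h6 : P⁻¹ * P = 1 := Matrix.nonsing_inv_mul _ hPu
    have h7 : P * (P⁻¹ * X.η⁻¹ * P⁻¹) * P = X.η⁻¹ := by
      rw [mul_assoc P⁻¹, ← mul_assoc P, h5, one_mul, mul_assoc, h6, mul_one]
    rw [h3, Matrix.mul_smul, Matrix.smul_mul] at h7
    rw [← h7, smul_smul, mul_inv_cancel₀ (pow_ne_zero _ two_ne_zero), one_smul, h7]
  have h3 := congrFun (congrFun h2 a) b
  rw [Matrix.mul_diagonal, Matrix.diagonal_mul, Matrix.smul_apply, smul_eq_mul] at h3
  have h4 : (2 : ℂ) ^ (f a + f b) = 2 ^ X.D := by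
    rw [pow_add]
    have : ((2 : ℂ) ^ f a * 2 ^ f b - 2 ^ X.D) * X.η⁻¹ a b = 0 := by linear_combination h3
    rcases mul_eq_zero.1 this with h' | h'
    · linear_combination h'
    · exact absurd h' h
  have h5 : (2 : ℕ) ^ (f a + f b) = 2 ^ X.D := by exact_mod_cast h4
  exact Nat.pow_right_injective le_rfl h5

lemma inv_type (a b : X.ι) (h : X.η⁻¹ a b ≠ 0) :
    X.p a + X.p b = X.D ∧ X.q a + X.q b = X.D :=
  ⟨inv_type_aux X X.p (fun a b h => (X.η_type a b h).1) a b h,
    inv_type_aux X X.q (fun a b h => (X.η_type a b h).2) a b h⟩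

/-- parity of an index -/
def pr (a : X.ι) : ℕ := X.p a + X.q a

lemma par_eq (x : X.V) : X.par x = pr X x.2 := rfl

lemma eta_par (a b : X.ι) (h : X.η a b ≠ 0) : pr X a % 2 = pr X b % 2 := by
  have := X.η_type a b h
  unfold pr
  omega

lemma inv_par (a b : X.ι) (h : X.η⁻¹ a b ≠ 0) : pr X a % 2 = pr X b % 2 := by
  have := inv_type X a b h
  unfold pr
  omega

lemma R_par (a b : X.ι) (h : X.R a b ≠ 0) : pr X a % 2 = pr X b % 2 := by
  have := X.R_type a b h
  unfold pr
  omega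

lemma inv_symm (a b : X.ι) : X.η⁻¹ a b = (-1) ^ (pr X a * pr X b) * X.η⁻¹ b a := by
  set S : Matrix X.ι X.ι ℂ := Matrix.diagonal fun a => (-1 : ℂ) ^ pr X a with hS
  have h1 : X.η = S * X.η.transpose := by
    ext i j
    rw [Matrix.diagonal_mul, Matrix.transpose_apply]
    by_cases hij : X.η i j = 0
    · rw [hij]
      have : X.η j i = 0 := by
        rw [X.η_symm j i, hij, mul_zero]
      rw [this, mul_zero]
    · rw [X.η_symm i j]
      congr 1
      apply neg_one_pow_mod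
      have := eta_par X i j hij
      unfold pr at this ⊢
      rcases Nat.mod_two_eq_zero_or_one (X.p i + X.q i) with h | h
      · simp [Nat.mul_mod, h]
      · rw [Nat.mul_mod, ← this, h]
  have hSS : S * S = 1 := by
    rw [hS, Matrix.diagonal_mul_diagonal]
    ext i j
    by_cases hij : i = j
    · subst hij
      rw [Matrix.diagonal_apply_eq, Matrix.one_apply_eq, ← pow_add, ← two_mul, pow_mul]
      simp
    · rw [Matrix.diagonal_apply_ne _ hij, Matrix.one_apply_ne hij]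
  have h2 : X.η⁻¹ = X.η⁻¹.transpose * S := by
    apply Matrix.inv_eq_left_inv
    calc X.η⁻¹.transpose * S * X.η = X.η⁻¹.transpose * S * (S * X.η.transpose) := by
          rw [← h1]
      _ = (X.η * X.η⁻¹).transpose := by
          rw [mul_assoc, ← mul_assoc S, hSS, one_mul, ← Matrix.transpose_mul]
      _ = 1 := by rw [mul_inv, Matrix.transpose_one]
  have h3 := congrFun (congrFun h2 a) b
  rw [Matrix.mul_diagonal, Matrix.transpose_apply] at h3
  rw [h3, mul_comm]
  by_cases hab : X.η⁻¹ b a = 0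
  · simp [hab]
  · congr 1
    apply neg_one_pow_mod
    have := inv_par X b a hab
    rcases Nat.mod_two_eq_zero_or_one (pr X b) with h | h
    · simp [Nat.mul_mod, h]
    · rw [Nat.mul_mod, ← this, h]

/-- `η⁻¹ R = Rᵀ η⁻¹` -/
lemma inv_R : X.η⁻¹ * X.R = X.R.transpose * X.η⁻¹ := by
  have h : X.R * X.η = X.η * X.R.transpose := by
    ext a b
    rw [Matrix.mul_apply, Matrix.mul_apply, X.R_adj a b]
    exact Finset.sum_congr rfl fun c _ => by rw [Matrix.transpose_apply, mul_comm]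
  calc X.η⁻¹ * X.R = X.η⁻¹ * X.R * (X.η * X.η⁻¹) := by rw [mul_inv, mul_one]
    _ = X.η⁻¹ * (X.R * X.η) * X.η⁻¹ := by simp only [mul_assoc]
    _ = X.η⁻¹ * X.η * X.R.transpose * X.η⁻¹ := by rw [h]; simp only [mul_assoc]
    _ = X.R.transpose * X.η⁻¹ := by rw [inv_mul, one_mul]

lemma inv_R_apply (a b : X.ι) : ∑ c, X.η⁻¹ a c * X.R c b = ∑ c, X.R c a * X.η⁻¹ c b := by
  have := congrFun (congrFun (inv_R X) a) b
  simpa [Matrix.mul_apply] using this

lemma inv_Rpow (i : ℕ) : X.η⁻¹ * X.R ^ i = (X.R ^ i).transpose * X.η⁻¹ := by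
  induction i with
  | zero => simp
  | succ i ih =>
    rw [pow_succ, ← mul_assoc, ih, mul_assoc, inv_R, ← mul_assoc, ← Matrix.transpose_mul,
      ← pow_succ', ← pow_succ]

lemma Rpow_type (i : ℕ) (a b : X.ι) (h : (X.R ^ i) a b ≠ 0) :
    X.p b = X.p a + i ∧ X.q b = X.q a + i := by
  induction i generalizing b with
  | zero =>
    rw [pow_zero, Matrix.one_apply] at h
    have : a = b := by
      by_contra hab
      simp [hab] at h
    subst this
    simp
  | succ i ih =>
    rw [pow_succ, Matrix.mul_apply] at h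
    obtain ⟨c, -, hc⟩ := Finset.exists_ne_zero_of_sum_ne_zero h
    have h1 := ih c (left_ne_zero_of_mul hc)
    have h2 := X.R_type c b (right_ne_zero_of_mul hc)
    omega

lemma Rpow_par (i : ℕ) (a b : X.ι) (h : (X.R ^ i) a b ≠ 0) : pr X a % 2 = pr X b % 2 := by
  have := Rpow_type X i a b h
  unfold pr
  omega

/-- graded symmetry of `(c_1^i)^{ab}` -/
lemma invR_symm (i : ℕ) (a b : X.ι) :
    (X.η⁻¹ * X.R ^ i) a b = (-1) ^ (pr X a * pr X b) * (X.η⁻¹ * X.R ^ i) b a := by
  conv_lhs => rw [inv_Rpow]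
  rw [Matrix.mul_apply, Matrix.mul_apply, Finset.mul_sum]
  refine Finset.sum_congr rfl fun c _ => ?_
  rw [Matrix.transpose_apply, inv_symm X c b]
  by_cases h : (X.R ^ i) c a = 0
  · simp [h]
  · rw [neg_one_pow_mod (pr X c * pr X b) (pr X a * pr X b) (by
      rw [Nat.mul_mod, Nat.mul_mod (pr X a), Rpow_par X i c a h])]
    ring

lemma invR_type (i : ℕ) (a b : X.ι) (h : (X.η⁻¹ * X.R ^ i) a b ≠ 0) :
    X.p a + X.p b = X.D + i ∧ X.q a + X.q b = X.D + i := by
  rw [Matrix.mul_apply] at h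
  obtain ⟨c, -, hc⟩ := Finset.exists_ne_zero_of_sum_ne_zero h
  have h1 := inv_type X a c (left_ne_zero_of_mul hc)
  have h2 := Rpow_type X i c b (right_ne_zero_of_mul hc)
  omega

lemma invR_par (i : ℕ) (a b : X.ι) (h : (X.η⁻¹ * X.R ^ i) a b ≠ 0) :
    pr X a % 2 = pr X b % 2 := by
  have := invR_type X i a b h
  unfold pr
  omega

lemma b_eta (a b : X.ι) (h : X.η a b ≠ 0) : X.b a + X.b b = 1 := by
  have h1 := (X.η_type a b h).1
  have h2 : (X.p a : ℂ) + X.p b = X.D := by exact_mod_cast h1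
  unfold Target.b
  linear_combination h2

lemma b_inv (a b : X.ι) (h : X.η⁻¹ a b ≠ 0) : X.b a + X.b b = 1 := by
  have h1 := (inv_type X a b h).1
  have h2 : (X.p a : ℂ) + X.p b = X.D := by exact_mod_cast h1
  unfold Target.b
  linear_combination h2

lemma b_Rpow (i : ℕ) (a b : X.ι) (h : (X.R ^ i) a b ≠ 0) : X.b b = X.b a + i := by
  have h1 := (Rpow_type X i a b h).1
  have h2 : (X.p b : ℂ) = X.p a + i := by exact_mod_cast h1
  unfold Target.b
  linear_combination h2

lemma b_R (a b : X.ι) (h : X.R a b ≠ 0) : X.b b = X.b a + 1 := by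
  have := b_Rpow X 1 a b (by simpa using h)
  simpa using this

lemma b_invR (i : ℕ) (a b : X.ι) (h : (X.η⁻¹ * X.R ^ i) a b ≠ 0) :
    X.b a + X.b b = 1 + i := by
  have h1 := (invR_type X i a b h).1
  have h2 : (X.p a : ℂ) + X.p b = X.D + i := by exact_mod_cast h1
  unfold Target.b
  linear_combination h2

end Vale.Agent.P269.H332
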