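import Vale.Agent.P269.H332.Brk

/-! Comparison of the pairing with the genus zero Virasoro expressions. -/

set_option autoImplicit false

namespace Vale.Agent.P269.H332

open Vale.Agent.P269.H207 Finset

variable {X : Target} {R' : Type*} [CommRing R'] [Algebra ℂ R']

/-! ### positive part -/

/-- the coefficients of the second order part -/
noncomputable def BB (X : Target) (K i m : ℕ) (a b : X.ι) : ℂ :=
  (-1) ^ (m + 1) * br K i (-X.b a - m) * (X.η⁻¹ * X.R ^ i) a b

lemma BB_symm (K i m n : ℕ) (hK : m + n + i + 2 = K) (a b : X.ι) :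
    (-1) ^ (pr X a * pr X b) * BB X K i n b a = BB X K i m a b := by
  unfold BB
  rw [invR_symm X i a b]
  by_cases h : (X.η⁻¹ * X.R ^ i) b a = 0
  · simp [h]
  have hb := b_invR X i b a h
  have e1 : -X.b b - n = -(-X.b a - m) - K + 1 := by
    have : (K : ℂ) = m + n + i + 2 := by rw [← hK]; push_cast; ring
    rw [this]
    linear_combination -hb
  rw [e1, br_reflect]
  have e2 : (-1 : ℂ) ^ (n + 1) * (-1) ^ (K + i) = (-1) ^ (m + 1) := by
    rw [← pow_add]
    apply neg_one_pow_mod
    omega
  linear_combination ((-1) ^ (pr X a * pr X b) * br K i (-X.b a - m)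
    * (X.η⁻¹ * X.R ^ i) b a) * e2

lemma BB_par (K i m : ℕ) (a b : X.ι) (h : BB X K i m a b ≠ 0) : pr X a % 2 = pr X b % 2 :=
  invR_par X i a b (right_ne_zero_of_mul h)

/-- the value of `l_k E_x` at a nonnegative power of `z` -/
lemma LK_E_nat (F : List X.V → R') (K : ℕ) (x : X.V) (n : ℕ) (a : X.ι) :
    LK K (E F x) (n : ℤ) a =
      ∑ i ∈ range (K + 1), ((if K + x.1 = n + 1 + i then
          algebraMap ℂ R' (br K i (X.b x.2 + x.1) * (X.R ^ i) x.2 a) else 0) • cst 1
        + if n + 1 + i < K then ∑ b, algebraMap ℂ R' (BB X K i (K - 2 - i - n) b a) •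
            W F x (K - 2 - i - n, b) else 0) := by
  rw [LK_apply]
  refine Finset.sum_congr rfl fun i _ => ?_
  by_cases h : n + 1 + i < K
  · obtain ⟨j, hj⟩ : ∃ j, K = n + i + j + 2 := ⟨K - 2 - i - n, by omega⟩
    have e1 : K - 2 - i - n = j := by omega
    have e2 : ((n : ℤ) + 1 - K + i) = Int.negSucc j := by
      rw [hj, Int.negSucc_eq]
      push_cast
      ring
    rw [if_neg (by omega), if_pos h, zero_smul, zero_add, e1, e2]
    simp only [E_neg]
    have e3 : ∀ c, algebraMap ℂ R' (br K i (X.b c + (Int.negSucc j : ℤ)) * (X.R ^ i) c a) •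
        ((-1 : R') ^ (j + 1)) • ∑ b, algebraMap ℂ R' (X.η⁻¹ b c) • W F x (j, b)
        = ∑ b, algebraMap ℂ R' ((-1) ^ (j + 1) * br K i (-X.b b - j) *
          (X.η⁻¹ b c * (X.R ^ i) c a)) • W F x (j, b) := by
      intro c
      rw [Finset.smul_sum, Finset.smul_sum]
      refine Finset.sum_congr rfl fun b _ => ?_
      by_cases hb : X.η⁻¹ b c = 0
      · simp [hb]
      have h1 := b_inv X b c hb
      have h2 : X.b c + ((Int.negSucc j : ℤ) : ℂ) = -X.b b - j := by
        rw [Int.negSucc_eq]
        push_cast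
        linear_combination h1
      rw [h2]
      simp only [smul_smul, map_mul, map_pow, map_neg, map_one]
      congr 1
      ring
    rw [Finset.sum_congr rfl fun c _ => e3 c, Finset.sum_comm]
    refine Finset.sum_congr rfl fun b _ => ?_
    rw [← Finset.sum_smul, ← map_sum, ← Finset.mul_sum, ← Matrix.mul_apply]
    rfl
  · obtain ⟨m, hm⟩ : ∃ m, n + 1 + i = K + m := ⟨n + 1 + i - K, by omega⟩
    have e2 : ((n : ℤ) + 1 - K + i) = (m : ℤ) := by
      have : (n : ℤ) + 1 + i = K + m := by exact_mod_cast hm
      linear_combination this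
    rw [if_neg h, add_zero, e2]
    simp only [E_nat]
    by_cases hx : x.1 = m
    · rw [Finset.sum_eq_single x.2]
      · rw [if_pos (by rw [← hx]), if_pos (by omega), ← hx]
        push_cast
        rfl
      · intro c _ hc
        rw [if_neg, smul_zero]
        intro h'
        exact hc (by rw [h'])
      · simp
    · rw [if_neg (by omega), zero_smul]
      refine Finset.sum_eq_zero fun c _ => ?_
      rw [if_neg, smul_zero]
      intro h'
      exact hx (by rw [h'])

lemma dv_AK (F : List X.V → R') (K : ℕ) (x : X.V) :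
    dv (AK X R' K x) F = ∑ i ∈ range (K + 1), ∑ b, if i + 1 ≤ x.1 + K then
      algebraMap ℂ R' (br K i (X.b x.2 + x.1) * (X.R ^ i) x.2 b) •
        dd (x.1 + K - 1 - i, b) F else 0 := by
  unfold AK
  rw [dv_finsetSum]
  refine Finset.sum_congr rfl fun i _ => ?_
  rw [dv_finsetSum]
  refine Finset.sum_congr rfl fun b _ => ?_
  split_ifs with h
  · rw [dv_single]
  · rw [dv_zero_left]

lemma spl_BK (F : List X.V → R') (K : ℕ) :
    spl X.par (BK X R' K) F F = ∑ i ∈ range K, ∑ m ∈ range (K - 1 - i), ∑ a, ∑ b,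
      algebraMap ℂ R' (1 / 2 * BB X K i m a b) •
        smul2 X.par (tw X.par (pr X b) (dd (m, a) F)) (dd (K - 2 - i - m, b) F) := by
  unfold BK
  rw [spl_finsetSum]
  refine Finset.sum_congr rfl fun i _ => ?_
  rw [spl_finsetSum]
  refine Finset.sum_congr rfl fun m _ => ?_
  rw [spl_finsetSum]
  refine Finset.sum_congr rfl fun a _ => ?_
  rw [spl_finsetSum]
  refine Finset.sum_congr rfl fun b _ => ?_
  rw [spl_single]
  unfold BB
  congr 2
  ring

/-- derivative of one term of the quadratic part -/
lemma dd_term {F : List X.V → R'} (hF : IsG0 X F) (K i m n : ℕ) (a b : X.ι) (x : X.V) :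
    dd x (algebraMap ℂ R' (1 / 2 * BB X K i m a b) •
        smul2 X.par (tw X.par (pr X b) (dd (m, a) F)) (dd (n, b) F))
      = algebraMap ℂ R' (1 / 2 * BB X K i m a b) • smul2 X.par (dd (n, b) F) (W F x (m, a))
        + algebraMap ℂ R' (1 / 2 * ((-1) ^ (pr X a * pr X b) * BB X K i m a b)) •
          smul2 X.par (dd (m, a) F) (W F x (n, b)) := by
  by_cases h : BB X K i m a b = 0
  · simp [h]
  have hp := zpar (BB_par K i m a b h)
  have p1 : HasPar X.par (pr X a) (dd (m, a) F) := by
    have := hF.even.dd (m, a)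
    simpa [par_eq] using this
  have p2 : HasPar X.par (pr X b) (dd (n, b) F) := by
    have := hF.even.dd (n, b)
    simpa [par_eq] using this
  have p3 := W_par hF.even (m, a) x
  simp only at p3
  have e0 : smul2 X.par (tw X.par (pr X b) (dd (m, a) F)) (dd (n, b) F)
      = ((-1 : R') ^ (pr X b * pr X a)) • smul2 X.par (dd (m, a) F) (dd (n, b) F) := by
    rw [tw_of_hasPar p1, smul2_smul_left]
  have e1 : smul2 X.par (dd x (dd (m, a) F)) (dd (n, b) F)
      = ((-1 : R') ^ ((pr X a + pr X x.2) * pr X b + pr X a * pr X x.2)) •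
        smul2 X.par (dd (n, b) F) (W F x (m, a)) := by
    have e1' : dd x (dd (m, a) F) = W F (m, a) x := rfl
    rw [e1', smul2_comm p3 p2, W_swap hF.symm (m, a) x, smul2_smul_right, smul_smul, pow_add]
  have e2 : smul2 X.par (tw X.par (X.par x) (dd (m, a) F)) (dd x (dd (n, b) F))
      = ((-1 : R') ^ (pr X x.2 * pr X a + pr X b * pr X x.2)) •
        smul2 X.par (dd (m, a) F) (W F x (n, b)) := by
    have e1' : dd x (dd (n, b) F) = W F (n, b) x := rfl
    rw [e1', tw_of_hasPar p1, smul2_smul_left, W_swap hF.symm (n, b) x, smul2_smul_right,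
      smul_smul, pow_add, par_eq]
  rw [dd_smul, e0, dd_smul, dd_smul2, e1, e2, smul_add, smul_add]
  simp only [smul_smul, ← pow_add, map_mul, map_pow, map_neg, map_one]
  have s1 : (-1 : R') ^ (pr X b * pr X a + ((pr X a + pr X x.2) * pr X b
      + pr X a * pr X x.2)) = 1 := by
    rw [sgn (n := 0), pow_zero]
    push_cast
    rw [hp]
    have key : ∀ b x : ZMod 2, b * b + ((b + x) * b + b * x) = 0 := by decide
    exact key _ _
  have s2 : (-1 : R') ^ (pr X b * pr X a + (pr X x.2 * pr X a + pr X b * pr X x.2))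
      = (-1) ^ (pr X a * pr X b) := by
    apply sgn
    push_cast
    rw [hp]
    have key : ∀ b x : ZMod 2, b * b + (x * b + b * x) = b * b := by decide
    exact key _ _
  rw [s1, s2, mul_one]
  congr 2
  ring

/-- derivative of the quadratic part -/
lemma dd_spl_BK {F : List X.V → R'} (hF : IsG0 X F) (K : ℕ) (x : X.V) :
    dd x (spl X.par (BK X R' K) F F) = ∑ i ∈ range K, ∑ m ∈ range (K - 1 - i), ∑ a, ∑ b,
      algebraMap ℂ R' (BB X K i m a b) •
        smul2 X.par (dd (K - 2 - i - m, b) F) (W F x (m, a)) := by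
  rw [spl_BK]
  simp only [dd_sum, dd_term hF, Finset.sum_add_distrib]
  rw [← Finset.sum_add_distrib]
  refine Finset.sum_congr rfl fun i hi => ?_
  -- reflect the second sum
  have h2 : ∑ m ∈ range (K - 1 - i), ∑ a, ∑ b,
      algebraMap ℂ R' (1 / 2 * ((-1) ^ (pr X a * pr X b) * BB X K i m a b)) •
          smul2 X.par (dd (m, a) F) (W F x (K - 2 - i - m, b))
      = ∑ m ∈ range (K - 1 - i), ∑ a, ∑ b, algebraMap ℂ R' (1 / 2 * BB X K i m a b) •
        smul2 X.par (dd (K - 2 - i - m, b) F) (W F x (m, a)) := by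
    rw [← Finset.sum_range_reflect]
    refine Finset.sum_congr rfl fun m hm => ?_
    rw [Finset.mem_range] at hm
    rw [Finset.sum_comm]
    refine Finset.sum_congr rfl fun a _ => Finset.sum_congr rfl fun b _ => ?_
    have e1 : K - 1 - i - 1 - m = K - 2 - i - m := by omega
    have e2 : K - 2 - i - (K - 2 - i - m) = m := by omega
    rw [e1, e2, mul_comm (pr X b), BB_symm K i m (K - 2 - i - m) (by omega) a b]
  rw [h2, ← Finset.sum_add_distrib]
  refine Finset.sum_congr rfl fun m _ => ?_
  rw [← Finset.sum_add_distrib]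
  refine Finset.sum_congr rfl fun a _ => ?_
  rw [← Finset.sum_add_distrib]
  refine Finset.sum_congr rfl fun b _ => ?_
  rw [← add_smul, ← map_add]
  congr 2
  ring

/-- positive part of the pairing -/
lemma pos_part {F : List X.V → R'} (hF : IsG0 X F) (K : ℕ) (x : X.V) (N : ℕ)
    (hN : x.1 + K < N) :
    ∑ n ∈ range N, ∑ a, smul2 X.par (dd (n, a) F) (LK K (E F x) (n : ℤ) a)
      = dv (AK X R' K x) F + dd x (spl X.par (BK X R' K) F F) := by
  have e0 : ∀ n a, smul2 X.par (dd (n, a) F) (LK K (E F x) (n : ℤ) a)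
      = ∑ i ∈ range (K + 1), ((if K + x.1 = n + 1 + i then
          algebraMap ℂ R' (br K i (X.b x.2 + x.1) * (X.R ^ i) x.2 a) else 0) • dd (n, a) F)
        + ∑ i ∈ range (K + 1), if n + 1 + i < K then ∑ b,
            algebraMap ℂ R' (BB X K i (K - 2 - i - n) b a) •
            smul2 X.par (dd (n, a) F) (W F x (K - 2 - i - n, b)) else 0 := by
    intro n a
    rw [LK_E_nat, smul2_sum_right, ← Finset.sum_add_distrib]
    refine Finset.sum_congr rfl fun i _ => ?_
    rw [smul2_add_right, smul2_smul_right, smul2_cst_right, one_smul]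
    congr 1
    split_ifs
    · rw [smul2_sum_right]
      exact Finset.sum_congr rfl fun b _ => by rw [smul2_smul_right]
    · rw [smul2_zero_right]
  simp only [e0, Finset.sum_add_distrib]
  congr 1
  · -- the linear part
    rw [dv_AK]
    have e1 : ∑ n ∈ range N, ∑ a, ∑ i ∈ range (K + 1), (if K + x.1 = n + 1 + i then
          algebraMap ℂ R' (br K i (X.b x.2 + x.1) * (X.R ^ i) x.2 a) else 0) • dd (n, a) F
        = ∑ i ∈ range (K + 1), ∑ a, ∑ n ∈ range N, (if K + x.1 = n + 1 + i then
          algebraMap ℂ R' (br K i (X.b x.2 + x.1) * (X.R ^ i) x.2 a) else 0) • dd (n, a) F := by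
      rw [Finset.sum_congr rfl fun n _ => Finset.sum_comm, Finset.sum_comm]
      exact Finset.sum_congr rfl fun i _ => Finset.sum_comm
    rw [e1]
    refine Finset.sum_congr rfl fun i hi => Finset.sum_congr rfl fun a _ => ?_
    split_ifs with h
    · rw [Finset.sum_eq_single (x.1 + K - 1 - i)]
      · rw [if_pos (by omega)]
      · intro n _ hn
        rw [if_neg (by omega), zero_smul]
      · intro h'
        exact absurd (Finset.mem_range.2 (by omega)) h'
    · refine Finset.sum_eq_zero fun n _ => ?_
      rw [if_neg (by omega), zero_smul]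
  · rw [dd_spl_BK hF]
    have e1 : ∑ n ∈ range N, ∑ a, ∑ i ∈ range (K + 1), (if n + 1 + i < K then ∑ b,
            algebraMap ℂ R' (BB X K i (K - 2 - i - n) b a) •
            smul2 X.par (dd (n, a) F) (W F x (K - 2 - i - n, b)) else 0)
        = ∑ i ∈ range (K + 1), ∑ n ∈ range N, ∑ a, (if n + 1 + i < K then ∑ b,
            algebraMap ℂ R' (BB X K i (K - 2 - i - n) b a) •
            smul2 X.par (dd (n, a) F) (W F x (K - 2 - i - n, b)) else 0) := by
      rw [Finset.sum_congr rfl fun n _ => Finset.sum_comm, Finset.sum_comm]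
    rw [e1, Finset.sum_range_succ]
    have e2 : ∑ n ∈ range N, ∑ a, (if n + 1 + K < K then ∑ b,
            algebraMap ℂ R' (BB X K K (K - 2 - K - n) b a) •
            smul2 X.par (dd (n, a) F) (W F x (K - 2 - K - n, b)) else 0) = 0 := by
      refine Finset.sum_eq_zero fun n _ => Finset.sum_eq_zero fun a _ => ?_
      rw [if_neg (by omega)]
    rw [e2, add_zero]
    refine Finset.sum_congr rfl fun i hi => ?_
    rw [Finset.mem_range] at hi
    have e3 : ∑ n ∈ range N, ∑ a, (if n + 1 + i < K then ∑ b,
            algebraMap ℂ R' (BB X K i (K - 2 - i - n) b a) •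
            smul2 X.par (dd (n, a) F) (W F x (K - 2 - i - n, b)) else 0)
        = ∑ n ∈ range (K - 1 - i), ∑ a, ∑ b,
            algebraMap ℂ R' (BB X K i (K - 2 - i - n) b a) •
            smul2 X.par (dd (n, a) F) (W F x (K - 2 - i - n, b)) := by
      have hsub : range (K - 1 - i) ⊆ range N := by
        intro n hn
        rw [Finset.mem_range] at hn ⊢
        omega
      rw [← Finset.sum_subset hsub]
      · refine Finset.sum_congr rfl fun n hn => Finset.sum_congr rfl fun a _ => ?_
        rw [Finset.mem_range] at hn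
        rw [if_pos (by omega)]
      · intro n _ hn
        rw [Finset.mem_range] at hn
        refine Finset.sum_eq_zero fun a _ => ?_
        rw [if_neg (by omega)]
    rw [e3, ← Finset.sum_range_reflect]
    refine Finset.sum_congr rfl fun m hm => ?_
    rw [Finset.mem_range] at hm
    have e4 : K - 1 - i - 1 - m = K - 2 - i - m := by omega
    have e5 : K - 2 - i - (K - 2 - i - m) = m := by omega
    rw [e4, e5, Finset.sum_comm]

/-! ### negative part -/

lemma invReta_apply (i : ℕ) (d b : X.ι) :
    ∑ a, ∑ c, X.η⁻¹ d c * (X.R ^ i) c a * X.η a b = (X.R ^ i) b d := by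
  have h : X.η⁻¹ * X.R ^ i * X.η = (X.R ^ i).transpose := by
    rw [inv_Rpow, mul_assoc, inv_mul, mul_one]
  have h2 := congrFun (congrFun h d) b
  rw [Matrix.mul_apply, Matrix.transpose_apply] at h2
  rw [← h2]
  refine Finset.sum_congr rfl fun a _ => ?_
  rw [Matrix.mul_apply, Finset.sum_mul]

lemma ng_LK (F : List X.V → R') (K : ℕ) (x y : X.V) :
    ng (LK K (E F x)) y = -(dv (AK X R' K y) (dd x F) + cst (CK X R' K x y)) := by
  rcases y with ⟨m, b⟩
  unfold ng
  simp only [LK_apply]
  -- exchange the sums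
  have e0 : ∑ a, algebraMap ℂ R' (X.η a b) • ∑ i ∈ range (K + 1), ∑ c,
      algebraMap ℂ R' (br K i (X.b c + (Int.negSucc m + 1 - K + i : ℤ)) * (X.R ^ i) c a)
        • E F x (Int.negSucc m + 1 - K + i) c
      = ∑ i ∈ range (K + 1), ∑ a, ∑ c, algebraMap ℂ R' (X.η a b *
        (br K i (X.b c + (Int.negSucc m + 1 - K + i : ℤ)) * (X.R ^ i) c a))
        • E F x (Int.negSucc m + 1 - K + i) c := by
    rw [Finset.sum_comm]
    refine Finset.sum_congr rfl fun a _ => ?_
    rw [Finset.smul_sum]
    refine Finset.sum_congr rfl fun i _ => ?_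
    rw [Finset.smul_sum]
    refine Finset.sum_congr rfl fun c _ => ?_
    rw [smul_smul, ← map_mul]
  rw [e0, Finset.smul_sum]
  -- the terms with `i + 1 ≤ m + K`
  have key : ∀ i ∈ range (K + 1), i + 1 ≤ m + K →
      ((-1 : R') ^ (m + 1)) • ∑ a, ∑ c, algebraMap ℂ R' (X.η a b *
        (br K i (X.b c + (Int.negSucc m + 1 - K + i : ℤ)) * (X.R ^ i) c a))
        • E F x (Int.negSucc m + 1 - K + i) c
      = -∑ d, algebraMap ℂ R' (br K i (X.b b + m) * (X.R ^ i) b d) •
        W F x (m + K - 1 - i, d) := by
    intro i hi hle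
    rw [Finset.mem_range] at hi
    obtain ⟨j, hj⟩ : ∃ j, m + K = j + i + 1 := ⟨m + K - 1 - i, by omega⟩
    have e1 : m + K - 1 - i = j := by omega
    have e2 : (Int.negSucc m + 1 - K + i : ℤ) = Int.negSucc j := by
      rw [Int.negSucc_eq, Int.negSucc_eq]
      have : (m : ℤ) + K = j + i + 1 := by exact_mod_cast hj
      linear_combination -this
    rw [e1, e2]
    simp only [E_neg]
    have e3 : ∀ a c, algebraMap ℂ R' (X.η a b *
        (br K i (X.b c + (Int.negSucc j : ℤ)) * (X.R ^ i) c a))
        • ((-1 : R') ^ (j + 1)) • ∑ d, algebraMap ℂ R' (X.η⁻¹ d c) • W F x (j, d)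
        = ∑ d, algebraMap ℂ R' ((-1) ^ (j + 1) * (-1) ^ (K + i) * br K i (X.b b + m)
          * (X.η⁻¹ d c * (X.R ^ i) c a * X.η a b)) • W F x (j, d) := by
      intro a c
      rw [Finset.smul_sum, Finset.smul_sum]
      refine Finset.sum_congr rfl fun d _ => ?_
      by_cases h1 : X.η a b = 0
      · simp [h1]
      by_cases h2 : (X.R ^ i) c a = 0
      · simp [h2]
      have h3 := b_eta X a b h1
      have h4 := b_Rpow X i c a h2
      have h5 : X.b c + ((Int.negSucc j : ℤ) : ℂ) = -(X.b b + m) - K + 1 := by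
        rw [Int.negSucc_eq]
        have : (m : ℂ) + K = j + i + 1 := by exact_mod_cast hj
        push_cast
        linear_combination h3 - h4 + this
      rw [h5, br_reflect]
      simp only [smul_smul, map_mul, map_pow, map_neg, map_one]
      congr 1
      ring
    simp only [e3]
    rw [Finset.sum_congr rfl fun a _ => Finset.sum_comm, Finset.sum_comm, Finset.smul_sum,
      ← Finset.sum_neg_distrib]
    refine Finset.sum_congr rfl fun d _ => ?_
    have e4 : ∑ a, ∑ c, algebraMap ℂ R' ((-1) ^ (j + 1) * (-1) ^ (K + i)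
          * br K i (X.b b + m) * (X.η⁻¹ d c * (X.R ^ i) c a * X.η a b)) • W F x (j, d)
        = algebraMap ℂ R' ((-1) ^ (j + 1) * (-1) ^ (K + i) * br K i (X.b b + m)
          * (X.R ^ i) b d) • W F x (j, d) := by
      rw [← invReta_apply i d b, Finset.mul_sum, map_sum, Finset.sum_smul]
      refine Finset.sum_congr rfl fun a _ => ?_
      rw [Finset.mul_sum, map_sum, Finset.sum_smul]
    rw [e4, smul_smul, ← neg_smul]
    congr 1
    simp only [map_mul, map_pow, map_neg, map_one]
    have e5 : (-1 : R') ^ (m + 1) * ((-1) ^ (j + 1) * (-1) ^ (K + i)) = -1 := by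
      rw [← pow_add, ← pow_add, neg_one_pow_mod _ 1 (by omega), pow_one]
    linear_combination (algebraMap ℂ R' (br K i (X.b b + m)) * algebraMap ℂ R' ((X.R ^ i) b d))
      * e5
  have hdv : dv (AK X R' K (m, b)) (dd x F) = ∑ i ∈ range (K + 1), if i + 1 ≤ m + K then
      ∑ d, algebraMap ℂ R' (br K i (X.b b + m) * (X.R ^ i) b d) •
        W F x (m + K - 1 - i, d) else 0 := by
    unfold AK
    rw [dv_finsetSum]
    refine Finset.sum_congr rfl fun i _ => ?_
    rw [dv_finsetSum]
    split_ifs with h
    · exact Finset.sum_congr rfl fun d _ => by rw [dv_single]; rfl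
    · simp only [dv_zero_left, Finset.sum_const_zero]
  have z0 : (cst 0 : List X.V → R') = 0 := by
    funext L
    cases L <;> simp
  rw [hdv]
  cases m with
  | succ m =>
    have hc : CK X R' K x (m + 1, b) = 0 := by
      unfold CK
      rw [if_neg (by simp)]
    rw [hc, z0, add_zero, ← Finset.sum_neg_distrib]
    refine Finset.sum_congr rfl fun i hi => ?_
    have hi' := Finset.mem_range.1 hi
    rw [key i hi (by omega), if_pos (by omega)]
  | zero =>
    rw [Finset.sum_range_succ, Finset.sum_range_succ _ K, if_neg (by omega), add_zero, neg_add,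
      ← Finset.sum_neg_distrib]
    congr 1
    · refine Finset.sum_congr rfl fun i hi => ?_
      have hi' := Finset.mem_range.1 hi
      rw [key i (Finset.mem_range.2 (by omega)) (by omega), if_pos (by omega)]
    · have e2 : (Int.negSucc 0 + 1 - K + K : ℤ) = ((0 : ℕ) : ℤ) := by
        rw [Int.negSucc_eq]
        push_cast
        ring
      rw [e2]
      simp only [E_nat, br_top, one_mul, zero_add, pow_one]
      by_cases hx : x.1 = 0
      · have e3 : ∀ a, ∑ c, algebraMap ℂ R' (X.η a b * (X.R ^ K) c a) •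
            (if x = (0, c) then (cst 1 : List X.V → R') else 0)
            = algebraMap ℂ R' ((X.R ^ K) x.2 a * X.η a b) • cst 1 := by
          intro a
          rw [Finset.sum_eq_single x.2]
          · rw [if_pos (by rw [← hx]), mul_comm]
          · intro c _ hc
            rw [if_neg, smul_zero]
            intro h'
            exact hc (by rw [h'])
          · simp
        rw [Finset.sum_congr rfl fun a _ => e3 a, ← Finset.sum_smul, ← map_sum,
          ← Matrix.mul_apply]
        unfold CK
        rw [if_pos ⟨hx, rfl⟩, neg_smul, one_smul]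
        congr 1
        funext L
        cases L with
        | nil =>
          show algebraMap ℂ R' ((X.R ^ K * X.η) x.2 b) * 1 = _
          rw [mul_one]
          rfl
        | cons y L =>
          show algebraMap ℂ R' ((X.R ^ K * X.η) x.2 b) * 0 = _
          rw [mul_zero]
          rfl
      · have hc : CK X R' K x (0, b) = 0 := by
          unfold CK
          rw [if_neg (by simp [hx])]
        rw [hc, z0, neg_zero]
        have e3 : ∀ a c, algebraMap ℂ R' (X.η a b * (X.R ^ K) c a) •
            (if x = (0, c) then (cst 1 : List X.V → R') else 0) = 0 := by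
          intro a c
          rw [if_neg, smul_zero]
          intro h'
          exact hx (by rw [h'])
        simp only [e3, Finset.sum_const_zero, smul_zero]

/-- the genus zero Virasoro expression -/
noncomputable def zK (X : Target) {R' : Type*} [CommRing R'] [Algebra ℂ R'] (K : ℕ)
    (F : List X.V → R') : List X.V → R' :=
  -dv (AK X R' K (1, X.one)) F + vf (AK X R' K) F + spl X.par (BK X R' K) F F
    + quad (CK X R' K)

theorem dd_zK {F : List X.V → R'} (hF : IsG0 X F) (K : ℕ) (x : X.V) : dd x (zK X K F) = 0 := by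
  obtain ⟨N0, hN0⟩ := good_LK hF K x
  have h := hN0 (max N0 (x.1 + K + 1)) (le_max_left _ _)
  rw [Pair_apply, pos_part hF K x _ (lt_of_lt_of_le (Nat.lt_succ_self _) (le_max_right _ _)),
    ng_LK, tt_congr (ng_LK F K x), tt_neg, tt_add, tt_cst,
    ← vf_eq_tt (AK_par K) (hF.symm.dd x)] at h
  have hc : CK X R' K x (1, X.one) = 0 := by
    unfold CK
    rw [if_neg (by simp)]
  have z0 : (cst 0 : List X.V → R') = 0 := by
    funext L
    cases L <;> simp
  rw [hc, z0, add_zero] at h
  unfold zK
  rw [dd_add, dd_add, dd_add, dd_neg, dd_vf, dd_quad,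
    dd_dv_odd (par := X.par) hF.symm x 0 _ (fun y hy => by rw [AK_par K _ y hy, one_par'])]
  simp only [mul_zero, pow_zero, one_smul]
  rw [← h]
  abel

/-- the genus zero Virasoro constraints, abstract form -/
theorem zK_eq_zero {F : List X.V → R'} (hF : IsG0 X F) (K : ℕ) : zK X K F = 0 := by
  classical
  funext L
  cases L with
  | cons x L => exact congrFun (dd_zK hF K x) L
  | nil =>
    -- the constant term, from the dilaton equation
    have h1 : ∀ y : X.V, F [y, (1, X.one)] = -F [y] := by
      intro y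
      have h2 := hF.symm.cons_perm (o := (1, X.one)) one_par' [y] []
      simp only [List.cons_append, List.nil_append, List.append_nil] at h2
      rw [h2]
      have h3 := congrFun hF.dilaton [y]
      simp only [dd_apply, Pi.add_apply, Pi.smul_apply, smul_eq_mul, vf_cons, vf_nil,
        dv_single, one_smul, add_zero] at h3
      rw [h3]
      ring
    have h2 := congrFun (dd_zK hF K (1, X.one)) []
    unfold zK at h2 ⊢
    have e1 : dv (AK X R' K (1, X.one)) F [(1, X.one)] = -dv (AK X R' K (1, X.one)) F [] := by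
      rw [dv_apply, dv_apply, Finsupp.sum, Finsupp.sum, ← Finset.sum_neg_distrib]
      exact Finset.sum_congr rfl fun y _ => by rw [h1]; ring
    have e2 : ∀ p q : X.V, smul2 X.par (tw X.par (X.par q) (dd p F)) (dd q F) [(1, X.one)]
        = -2 * smul2 X.par (tw X.par (X.par q) (dd p F)) (dd q F) [] := by
      intro p q
      rw [smul2_cons, smul2_nil, smul2_nil, smul2_nil]
      simp only [dd_apply, tw_apply, parL_cons, parL_nil, add_zero, mul_zero, pow_zero, one_mul,
        h1]
      have : (-1 : R') ^ (X.par q * X.par (1, X.one)) = 1 := by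
        rw [neg_one_pow_mod _ 0 (by rw [Nat.mul_mod, one_par']; simp), pow_zero]
      rw [this]
      ring
    have e3 : spl X.par (BK X R' K) F F [(1, X.one)] = -2 * spl X.par (BK X R' K) F F [] := by
      rw [spl_apply, spl_apply, Finsupp.sum, Finsupp.sum, Finset.mul_sum]
      exact Finset.sum_congr rfl fun p _ => by rw [e2]; ring
    simp only [dd_apply, Pi.add_apply, Pi.neg_apply, Pi.zero_apply, vf_cons, vf_nil, e1, e3,
      quad_one, quad_nil, add_zero, neg_neg] at h2 ⊢
    have h4 : (2 : R') * (-dv (AK X R' K (1, X.one)) F [] + spl X.par (BK X R' K) F F []) = 0 := by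
      linear_combination -h2
    have h5 : algebraMap ℂ R' (1 / 2) * 2 = 1 := by
      have : (2 : R') = algebraMap ℂ R' 2 := by rw [map_ofNat]
      rw [this, ← map_mul]
      norm_num
    have h6 := congrArg (fun t => algebraMap ℂ R' (1 / 2) * t) h4
    simp only [mul_zero, ← mul_assoc, h5, one_mul] at h6
    exact h6

end Vale.Agent.P269.H332
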