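import Vale.Agent.P269.H332.Cone

/-! The pairing with the dilaton shifted point of the cone. -/

set_option autoImplicit false

namespace Vale.Agent.P269.H332

open Vale.Agent.P269.H207 Finset

variable {X : Target} {R' : Type*} [CommRing R'] [Algebra ℂ R']

/-- the coefficients at `φ^b (-z)^{-m-1}` -/
noncomputable def ng (h : HH X R') (y : X.V) : List X.V → R' :=
  ((-1 : R') ^ (y.1 + 1)) • ∑ a, algebraMap ℂ R' (X.η a y.2) • h (Int.negSucc y.1) a

lemma ng_add (h h' : HH X R') (y : X.V) : ng (h + h') y = ng h y + ng h' y := by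
  unfold ng
  simp only [Pi.add_apply, smul_add, Finset.sum_add_distrib]

lemma ng_smul (c : R') (h : HH X R') (y : X.V) : ng (c • h) y = c • ng h y := by
  unfold ng
  simp only [Pi.smul_apply, Finset.smul_sum]
  refine Finset.sum_congr rfl fun a _ => ?_
  rw [smul_comm _ c, smul_comm _ c]

lemma ng_mulR (h : HH X R') (w : List X.V → R') (y : X.V) :
    ng (mulR h w) y = smul2 X.par (ng h y) w := by
  unfold ng
  rw [smul2_smul_left, smul2_sum_left]
  congr 1
  exact Finset.sum_congr rfl fun a _ => by rw [smul2_smul_left]; rfl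

lemma ng_E (F : List X.V → R') (x y : X.V) : ng (E F x) y = W F x y := by
  unfold ng
  simp only [E_neg]
  have e : ∀ a, algebraMap ℂ R' (X.η a y.2) • (((-1 : R') ^ (y.1 + 1)) •
      ∑ b, algebraMap ℂ R' (X.η⁻¹ b a) • W F x (y.1, b))
      = ((-1 : R') ^ (y.1 + 1)) • ∑ b, (algebraMap ℂ R' (X.η⁻¹ b a) *
        algebraMap ℂ R' (X.η a y.2)) • W F x (y.1, b) := by
    intro a
    rw [smul_comm, Finset.smul_sum]
    congr 1
    exact Finset.sum_congr rfl fun b _ => by rw [smul_smul, mul_comm]
  rw [Finset.sum_congr rfl fun a _ => e a, ← Finset.smul_sum, smul_smul, ← pow_add,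
    neg_one_pow_mod (y.1 + 1 + (y.1 + 1)) 0 (by omega), pow_zero, one_smul, Finset.sum_comm]
  simp only [← Finset.sum_smul, al_inv_eta]
  rw [Finset.sum_eq_single y.2]
  · simp
  · intro b _ hb
    simp [hb]
  · simp

/-- the pairing `Ω(f, h)` -/
noncomputable def Pair (F : List X.V → R') (N : ℕ) : HH X R' →ₗ[R'] (List X.V → R') where
  toFun h := ∑ n ∈ range N, ∑ a, smul2 X.par (dd (n, a) F) (h (n : ℤ) a)
    - tt X.par (ng h) + ng h (1, X.one)
  map_add' h h' := by
    have e1 : tt X.par (ng (h + h')) = tt X.par (ng h) + tt X.par (ng h') := by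
      rw [← tt_add]
      exact tt_congr fun y => ng_add h h' y
    simp only [e1, ng_add, Pi.add_apply, smul2_add_right, Finset.sum_add_distrib]
    abel
  map_smul' c h := by
    have e1 : tt X.par (ng (c • h)) = c • tt X.par (ng h) := by
      rw [← tt_smul]
      exact tt_congr fun y => ng_smul c h y
    simp only [e1, ng_smul, Pi.smul_apply, smul2_smul_right, RingHom.id_apply, smul_add,
      smul_sub, Finset.smul_sum]

lemma Pair_apply (F : List X.V → R') (N : ℕ) (h : HH X R') :
    Pair F N h = ∑ n ∈ range N, ∑ a, smul2 X.par (dd (n, a) F) (h (n : ℤ) a)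
    - tt X.par (ng h) + ng h (1, X.one) := rfl

lemma smul2_sub_left {α R : Type*} [CommRing R] {par : α → ℕ} (f g h : List α → R) :
    smul2 par (f - g) h = smul2 par f h - smul2 par g h := by
  rw [sub_eq_add_neg, smul2_add_left, smul2_neg_left, sub_eq_add_neg]

lemma Pair_mulR (F : List X.V → R') (N : ℕ) (h : HH X R') (w : List X.V → R') :
    Pair F N (mulR h w) = smul2 X.par (Pair F N h) w := by
  rw [Pair_apply, Pair_apply, smul2_add_left, smul2_sub_left, smul2_sum_left, tt_mul_right,
    ng_mulR]
  congr 2
  · refine Finset.sum_congr rfl fun n _ => ?_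
    rw [smul2_sum_left]
    exact Finset.sum_congr rfl fun a _ => by rw [smul2_assoc]; rfl
  · exact tt_congr fun y => ng_mulR h w y

/-- the pairing vanishes for all large truncations -/
def Good (F : List X.V → R') (h : HH X R') : Prop := ∃ N0, ∀ N ≥ N0, Pair F N h = 0

lemma Good.add {F : List X.V → R'} {h h' : HH X R'} (H : Good F h) (H' : Good F h') :
    Good F (h + h') := by
  obtain ⟨N, hN⟩ := H
  obtain ⟨N', hN'⟩ := H'
  refine ⟨max N N', fun M hM => ?_⟩
  rw [map_add, hN M (le_trans (le_max_left _ _) hM), hN' M (le_trans (le_max_right _ _) hM),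
    add_zero]

lemma Good.smul {F : List X.V → R'} {h : HH X R'} (c : R') (H : Good F h) :
    Good F (c • h) := by
  obtain ⟨N, hN⟩ := H
  exact ⟨N, fun M hM => by rw [map_smul, hN M hM, smul_zero]⟩

lemma Good.zero (F : List X.V → R') : Good F 0 := ⟨0, fun M _ => by rw [map_zero]⟩

lemma Good.sum {F : List X.V → R'} {ι : Type*} (s : Finset ι) {h : ι → HH X R'}
    (H : ∀ i ∈ s, Good F (h i)) : Good F (∑ i ∈ s, h i) := by
  classical
  induction s using Finset.induction_on with
  | empty => simpa using Good.zero F
  | insert a s ha ih =>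
    rw [Finset.sum_insert ha]
    exact (H a (Finset.mem_insert_self _ _)).add
      (ih fun i hi => H i (Finset.mem_insert_of_mem hi))

lemma Good.mulR {F : List X.V → R'} {h : HH X R'} (H : Good F h) (w : List X.V → R') :
    Good F (mulR h w) := by
  obtain ⟨N, hN⟩ := H
  exact ⟨N, fun M hM => by rw [Pair_mulR, hN M hM, smul2_zero_left]⟩

/-- the dilaton equation, differentiated -/
lemma good_E {F : List X.V → R'} (hF : IsG0 X F) (w : X.V) : Good F (E F w) := by
  refine ⟨w.1 + 1, fun N hN => ?_⟩
  have e1 : ∑ n ∈ range N, ∑ a, smul2 X.par (dd (n, a) F) (E F w (n : ℤ) a) = dd w F := by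
    rw [Finset.sum_eq_single w.1]
    · rw [Finset.sum_eq_single w.2]
      · rw [E_nat, if_pos rfl, smul2_cst_right, one_smul]
      · intro a _ ha
        rw [E_nat, if_neg, smul2_zero_right]
        intro h
        exact ha (by rw [h])
      · simp
    · intro n _ hn
      refine Finset.sum_eq_zero fun a _ => ?_
      rw [E_nat, if_neg, smul2_zero_right]
      intro h
      exact hn (by rw [h])
    · intro h
      exact absurd (Finset.mem_range.2 (by omega)) h
  have e2 : tt X.par (ng (E F w)) = vf (fun x => Finsupp.single x 1) (dd w F) := by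
    rw [vf_eq_tt (par := X.par) (fun x y hy => ?_) (hF.symm.dd w)]
    · refine tt_congr fun y => ?_
      rw [ng_E, dv_single, one_smul]
      rfl
    · have : y = x := by
        by_contra hne
        simp [Finsupp.single_apply, Ne.symm hne] at hy
      rw [this]
  have e3 : dd w (dd (1, X.one) F) = (-2 : R') • dd w F + (dd w F
      + vf (fun x => Finsupp.single x 1) (dd w F)) := by
    conv_lhs => rw [hF.dilaton]
    rw [dd_add, dd_smul, dd_vf, dv_single, one_smul]
  have e4 : W F w (1, X.one) = dd w (dd (1, X.one) F) := by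
    unfold W
    exact hF.symm.swap_even one_par' w
  rw [Pair_apply, e1, e2, ng_E, e4, e3]
  module

/-- the string equation, differentiated -/
lemma good_ziE {F : List X.V → R'} (hF : IsG0 X F) (a : X.ι) :
    Good F (ziop (E F (0, a))) := by
  refine ⟨0, fun N _ => ?_⟩
  have e1 : ∑ n ∈ range N, ∑ a', smul2 X.par (dd (n, a') F) (ziop (E F (0, a)) (n : ℤ) a')
      = 0 := by
    refine Finset.sum_eq_zero fun n _ => Finset.sum_eq_zero fun a' _ => ?_
    have : ziop (E F (0, a)) (n : ℤ) a' = E F (0, a) ((n + 1 : ℕ) : ℤ) a' := rfl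
    rw [this, E_nat, if_neg (by simp), smul2_zero_right]
  have e2 : ∀ y : X.V, ng (ziop (E F (0, a))) y
      = - (dv (AK X R' 0 y) (dd (0, a) F) + cst (CK X R' 0 (0, a) y)) := by
    rintro ⟨m, b⟩
    cases m with
    | zero =>
      unfold ng
      have e3 : ∀ a', ziop (E F (0, a)) (Int.negSucc 0) a' = E F (0, a) ((0 : ℕ) : ℤ) a' := by
        intro a'
        rfl
      simp only [e3, E_nat, zero_add, pow_one]
      rw [Finset.sum_eq_single a, AK_zero_zero, dv_zero_left, CK_zero, if_pos rfl]
      · simp only [and_self, if_true, zero_add, neg_smul, one_smul]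
        congr 1
        funext L
        cases L <;> simp
      · intro b _ hb
        rw [if_neg, smul_zero]
        intro h
        exact hb (by simpa using h.symm)
      · simp
    | succ m =>
      have e3 : ng (ziop (E F (0, a))) (m + 1, b) = - ng (E F (0, a)) (m, b) := by
        unfold ng
        simp only [ziop_apply, negSucc_succ_add_one]
        rw [pow_succ' _ (m + 1)]
        simp
      rw [e3, ng_E, AK_zero_succ, dv_single, one_smul, CK_zero, if_neg (by simp)]
      unfold W
      congr 1
      funext L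
      cases L <;> simp
  have e3 : tt X.par (ng (ziop (E F (0, a))))
      = -(vf (AK X R' 0) (dd (0, a) F) + lin (CK X R' 0 (0, a))) := by
    rw [tt_congr e2, tt_neg, tt_add, tt_cst, ← vf_eq_tt _ (hF.symm.dd _)]
    intro x y hy
    rcases x with ⟨m, b⟩
    cases m with
    | zero => simp [AK_zero_zero] at hy
    | succ m =>
      rw [AK_zero_succ] at hy
      have : y = (m, b) := by
        by_contra hne
        simp [Finsupp.single_apply, Ne.symm hne] at hy
      rw [this]
      rfl
  have e4 : dd (0, X.one) (dd (0, a) F)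
      = vf (AK X R' 0) (dd (0, a) F) + lin (CK X R' 0 (0, a)) := by
    rw [hF.symm.swap_even one_par (0, a)]
    conv_lhs => rw [hF.string]
    rw [dd_add, dd_vf, AK_zero_zero, dv_zero_left, zero_add, dd_quad]
  rw [Pair_apply, e1, e3, e2, CK_zero, if_neg (by simp), AK_zero_succ, dv_single, one_smul, e4]
  have : (cst 0 : List X.V → R') = 0 := by
    funext L
    cases L <;> simp
  rw [this]
  abel

lemma good_ziop {F : List X.V → R'} (hF : IsG0 X F) {h : HH X R'} (hh : h ∈ T0 X R' F) :
    Good F (ziop h) := by
  unfold T0 at hh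
  induction hh using Submodule.span_induction with
  | mem h hh =>
    obtain ⟨⟨m, a⟩, g, rfl⟩ := hh
    rw [ziop_mulR]
    apply Good.mulR
    cases m with
    | zero => exact good_ziE hF a
    | succ m =>
      have e : E F (m + 1, a) = zop (E F (m, a)) + ∑ c, mulR (E F (0, c)) (gg F (m, a) c) := by
        rw [zop_E hF]; abel
      rw [e, map_add, ziop_zop, map_sum]
      refine (good_E hF _).add (Good.sum _ fun c _ => ?_)
      rw [ziop_mulR]
      exact (good_ziE hF c).mulR _
  | zero => rw [map_zero]; exact Good.zero F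
  | add h h' _ _ H H' => rw [map_add]; exact H.add H'
  | smul c h _ H => rw [map_smul]; exact H.smul c

end Vale.Agent.P269.H332
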