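import Vale.Agent.P269.H207.Descent
import Vale.Agent.P269.H207.Defs

/-! The locally finite sums `∑_y t^y * g_y` of formal super power series. -/

set_option autoImplicit false

namespace Vale.Agent.P269.H332

open Vale.Agent.P269.H207

variable {α R : Type*} [CommRing R] {par : α → ℕ}

/-- value of `∑_y t^y * g_y` on a list -/
def ttAux (par : α → ℕ) : List α → (α → List α → R) → R
  | [], _ => 0
  | x :: L, g => g x L + ttAux par L (fun y => ((-1 : R) ^ (par x * par y)) • dd x (g y))

/-- the series `∑_y t^y * g_y` -/
def tt (par : α → ℕ) (g : α → List α → R) : List α → R := fun L => ttAux par L g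

@[simp] lemma tt_nil (g : α → List α → R) : tt par g [] = 0 := rfl

lemma tt_cons (g : α → List α → R) (x : α) (L : List α) :
    tt par g (x :: L)
      = g x L + tt par (fun y => ((-1 : R) ^ (par x * par y)) • dd x (g y)) L := rfl

lemma dd_tt (g : α → List α → R) (x : α) :
    dd x (tt par g) = g x + tt par (fun y => ((-1 : R) ^ (par x * par y)) • dd x (g y)) := rfl

lemma tt_congr {g g' : α → List α → R} (h : ∀ y, g y = g' y) : tt par g = tt par g' := by
  have : g = g' := funext h
  rw [this]

lemma tt_add (g g' : α → List α → R) :
    tt par (fun y => g y + g' y) = tt par g + tt par g' := by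
  funext L
  induction L generalizing g g' with
  | nil => simp
  | cons x L ih =>
    simp only [tt_cons, Pi.add_apply, dd_add, smul_add, ih]
    ring

lemma tt_smul (c : R) (g : α → List α → R) :
    tt par (fun y => c • g y) = c • tt par g := by
  funext L
  induction L generalizing g with
  | nil => simp
  | cons x L ih =>
    have : (fun y => ((-1 : R) ^ (par x * par y)) • dd x (c • g y))
        = fun y => c • (((-1 : R) ^ (par x * par y)) • dd x (g y)) := by
      funext y
      rw [dd_smul, smul_comm]
    simp only [tt_cons, Pi.smul_apply, this, ih, smul_eq_mul]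
    ring

lemma tt_neg (g : α → List α → R) : tt par (fun y => -g y) = -tt par g := by
  have := tt_smul (par := par) (-1 : R) g
  simpa using this

lemma tt_sub (g g' : α → List α → R) :
    tt par (fun y => g y - g' y) = tt par g - tt par g' := by
  simp only [sub_eq_add_neg]
  rw [tt_add, tt_neg]

@[simp] lemma tt_zero : tt par (fun _ : α => (0 : List α → R)) = 0 := by
  have := tt_smul (par := par) (0 : R) (fun _ : α => (0 : List α → R))
  simpa using this

lemma tt_sum {ι : Type*} (s : Finset ι) (g : ι → α → List α → R) :
    tt par (fun y => ∑ i ∈ s, g i y) = ∑ i ∈ s, tt par (g i) := by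
  classical
  induction s using Finset.induction_on with
  | empty => simp
  | insert a s ha ih =>
    simp only [Finset.sum_insert ha]
    rw [tt_add, ih]

lemma tw_tt (n : ℕ) (g : α → List α → R) :
    tw par n (tt par g) = tt par (fun y => ((-1 : R) ^ (n * par y)) • tw par n (g y)) := by
  funext L
  induction L generalizing g with
  | nil => simp
  | cons x L ih =>
    have h := ih (fun y => ((-1 : R) ^ (par x * par y)) • dd x (g y))
    have e : (fun y => ((-1 : R) ^ (par x * par y)) •
        dd x (((-1 : R) ^ (n * par y)) • tw par n (g y)))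
        = fun y => ((-1 : R) ^ (n * par x)) • (((-1 : R) ^ (n * par y)) •
          tw par n (((-1 : R) ^ (par x * par y)) • dd x (g y))) := by
      funext y
      rw [dd_smul, dd_tw, tw_smul]
      simp only [smul_smul]
      congr 1
      ring
    simp only [tt_cons, e, tt_smul, Pi.smul_apply, smul_eq_mul]
    rw [← h]
    simp only [tw_apply, tt_cons, parL_cons, mul_add, pow_add]
    ring

/-- `(∑ t^y g_y) * w = ∑ t^y (g_y * w)` -/
lemma tt_mul_right (g : α → List α → R) (w : List α → R) :
    smul2 par (tt par g) w = tt par (fun y => smul2 par (g y) w) := by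
  funext L
  induction L generalizing g w with
  | nil => simp
  | cons x L ih =>
    rw [smul2_cons, dd_tt, smul2_add_left, tw_tt, tt_cons, Pi.add_apply, ih, ih, add_assoc]
    congr 1
    rw [← Pi.add_apply, ← tt_add]
    refine congrFun (tt_congr fun y => ?_) L
    rw [dd_smul2, smul_add, smul2_smul_left, smul2_smul_left]

/-- `w * (∑ t^y g_y) = ∑ t^y (w^{tw} * g_y)` -/
lemma tt_mul_left (g : α → List α → R) (w : List α → R) :
    smul2 par w (tt par g) = tt par (fun y => smul2 par (tw par (par y) w) (g y)) := by
  funext L
  induction L generalizing g w with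
  | nil => simp
  | cons x L ih =>
    rw [smul2_cons, dd_tt, smul2_add_right, tt_cons, Pi.add_apply, ih, ih, ← add_assoc,
      add_comm _ (smul2 par (tw par (par x) w) (g x) L), add_assoc]
    congr 1
    rw [← Pi.add_apply, ← tt_add]
    refine congrFun (tt_congr fun y => ?_) L
    rw [dd_smul2, smul_add, dd_tw, smul2_smul_left, smul_smul, ← pow_add,
      neg_one_pow_mod (par x * par y + par y * par x) 0 (by rw [mul_comm (par y)]; omega),
      pow_zero, one_smul, tw_tw, tw_tw, add_comm (par y), smul2_smul_right]

lemma tt_cst (c : α → R) : tt par (fun y => cst (c y)) = lin c := by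
  funext L
  match L with
  | [] => rfl
  | [y] => simp [tt_cons]
  | y :: z :: L =>
    have e : (fun w => ((-1 : R) ^ (par y * par w)) • dd y (cst (c w) : List α → R))
        = fun _ => 0 := by
      funext w; simp
    rw [tt_cons, e, tt_zero]
    simp

lemma dd_dv_odd {f : List α → R} (hf : SSym par f) (x : α) (n : ℕ) (v : α →₀ R)
    (hv : ∀ y ∈ v.support, par y % 2 = n % 2) :
    dd x (dv v f) = ((-1 : R) ^ (par x * n)) • dv v (dd x f) := by
  funext L
  simp only [dd_apply, dv_apply, Pi.smul_apply, smul_eq_mul, Finsupp.mul_sum]
  refine Finset.sum_congr rfl fun y hy => ?_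
  have h1 := congrFun (hf.swap x y) L
  simp only [dd_apply, Pi.smul_apply, smul_eq_mul] at h1
  show v y * f (y :: x :: L) = (-1) ^ (par x * n) * (v y * f (x :: y :: L))
  rw [h1, neg_one_pow_mod (par x * n) (par x * par y) (by
    rw [Nat.mul_mod, Nat.mul_mod (par x) (par y), hv y hy])]
  ring

lemma vf_eq_tt {A : α → α →₀ R} (hA : EvenOp par A) {f : List α → R} (hf : SSym par f) :
    vf A f = tt par (fun y => dv (A y) f) := by
  funext L
  induction L generalizing f with
  | nil => rfl
  | cons x L ih =>
    rw [vf_cons, tt_cons, ih (hf.dd x)]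
    congr 1
    refine congrFun (tt_congr fun y => ?_) L
    rw [dd_dv_odd hf x (par y) (A y) (hA y), smul_smul, ← pow_add,
      neg_one_pow_mod (par x * par y + par x * par y) 0 (by omega), pow_zero, one_smul]

end Vale.Agent.P269.H332
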