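import Vale.Agent.P269.H332.Mat

/-! Consequences of the genus zero topological recursion relation and the string equation. -/

set_option autoImplicit false

namespace Vale.Agent.P269.H332

open Vale.Agent.P269.H207 Finset

/-! ### signs -/

lemma sgn {R : Type*} [CommRing R] {m n : ℕ} (h : (m : ZMod 2) = (n : ZMod 2)) :
    (-1 : R) ^ m = (-1) ^ n :=
  neg_one_pow_mod _ _ ((ZMod.natCast_eq_natCast_iff' m n 2).1 h)

lemma zpar {m n : ℕ} (h : m % 2 = n % 2) : (m : ZMod 2) = (n : ZMod 2) :=
  (ZMod.natCast_eq_natCast_iff' m n 2).2 h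

variable (X : Target) {R' : Type*} [CommRing R'] [Algebra ℂ R']

/-- Genus zero potentials. -/
structure IsG0 (F : List X.V → R') : Prop where
  symm : SSym X.par F
  even : HasPar X.par 0 F
  string : dd (0, X.one) F = vf (AK X R' 0) F + quad (CK X R' 0)
  dilaton : dd (1, X.one) F = (-2 : R') • F + vf (fun x => Finsupp.single x 1) F
  euler : -dv (AK X R' 1 (1, X.one)) F + vf (AK X R' 1) F + quad (CK X R' 1) = 0
  trr : ∀ (m : ℕ) (a : X.ι) (x y : X.V),
    dd y (dd x (dd (m + 1, a) F)) = ∑ c, ∑ c', algebraMap ℂ R' (X.η⁻¹ c c') •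
      smul2 X.par (tw X.par (X.par (0, c') + X.par x + X.par y) (dd (0, c) (dd (m, a) F)))
        (dd y (dd x (dd (0, c') F)))

variable {X}
variable {F : List X.V → R'}

/-- second derivatives -/
def W (F : List X.V → R') (x y : X.V) : List X.V → R' := dd y (dd x F)

omit [Algebra ℂ R'] in
lemma W_swap (hF : SSym X.par F) (x y : X.V) :
    W F x y = ((-1 : R') ^ (pr X x.2 * pr X y.2)) • W F y x := by
  unfold W
  rw [hF.swap y x, par_eq, par_eq, mul_comm]

omit [Algebra ℂ R'] in
lemma W_par (hF : HasPar X.par 0 F) (x y : X.V) :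
    HasPar X.par (pr X x.2 + pr X y.2) (W F x y) := by
  have := (hF.dd x).dd y
  simpa [W, par_eq] using this

omit [Algebra ℂ R'] in
lemma dW_par (hF : HasPar X.par 0 F) (x y z : X.V) :
    HasPar X.par (pr X x.2 + pr X y.2 + pr X z.2) (dd z (W F x y)) := by
  have := (W_par hF x y).dd z
  simpa [par_eq] using this

/-- TRR, left form -/
lemma trrL (h : IsG0 X F) (m : ℕ) (a : X.ι) (x y : X.V) :
    dd y (W F (m + 1, a) x) = ∑ c, ∑ c', algebraMap ℂ R' (X.η⁻¹ c c') •
      smul2 X.par (dd y (W F (0, c') x)) (W F (m, a) (0, c)) := by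
  have h0 := h.trr m a x y
  unfold W
  rw [h0]
  refine Finset.sum_congr rfl fun c _ => Finset.sum_congr rfl fun c' _ => ?_
  congr 1
  have h1 := W_par h.even (m, a) (0, c)
  have h2 := dW_par h.even (0, c') x y
  unfold W at h1 h2
  simp only at h1 h2
  rw [tw_of_hasPar h1, smul2_smul_left, smul2_comm h1 h2, smul_smul, ← pow_add, par_eq, par_eq,
    par_eq, sgn (n := 0), pow_zero, one_smul]
  push_cast
  have key : ∀ a c c' x y : ZMod 2, (c' + x + y) * (a + c) + (a + c) * (c' + x + y) = 0 := by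
    decide
  exact key _ _ _ _ _

/-- TRR, right form -/
lemma trrR (h : IsG0 X F) (m n : ℕ) (a b : X.ι) (y : X.V) :
    dd y (W F (m, a) (n + 1, b)) = ∑ c, ∑ d, algebraMap ℂ R' (X.η⁻¹ d c) •
      smul2 X.par (tw X.par (X.par y) (W F (0, c) (n, b))) (dd y (W F (m, a) (0, d))) := by
  rw [W_swap h.symm, dd_smul, trrL h, Finset.smul_sum]
  refine Finset.sum_congr rfl fun c _ => ?_
  rw [Finset.smul_sum]
  refine Finset.sum_congr rfl fun d _ => ?_
  by_cases hcd : X.η⁻¹ d c = 0
  · rw [inv_symm X c d, hcd]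
    simp
  have hpar := zpar (inv_par X d c hcd)
  have h1 := W_par h.even (n, b) (0, c)
  have h2 := dW_par h.even (0, d) (m, a) y
  rw [W_swap h.symm (0, c) (n, b), W_swap h.symm (m, a) (0, d), dd_smul, tw_smul,
    tw_of_hasPar h1, smul2_smul_left, smul2_smul_left, smul2_smul_right, smul2_comm h1 h2,
    inv_symm X c d]
  simp only [smul_smul, map_mul, map_pow, map_neg, map_one, par_eq]
  congr 1
  rw [← mul_assoc, ← pow_add]
  have e : ∀ u : R', u * ((-1) ^ (pr X c * pr X b) * ((-1) ^ (pr X y.2 * (pr X b + pr X c)) *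
      ((-1) ^ (pr X a * pr X d) * (-1) ^ ((pr X b + pr X c) * (pr X d + pr X a + pr X y.2)))))
      = (-1) ^ (pr X c * pr X b + pr X y.2 * (pr X b + pr X c) + pr X a * pr X d +
        (pr X b + pr X c) * (pr X d + pr X a + pr X y.2)) * u := by
    intro u
    rw [pow_add, pow_add, pow_add]
    ring
  rw [e]
  congr 1
  apply sgn
  push_cast
  rw [hpar]
  have key : ∀ a b c y : ZMod 2, a * b + c * c
      = c * b + y * (b + c) + a * c + (b + c) * (c + a + y) := by
    decide
  exact key _ _ _ _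

/-! ### the lowering operator -/

lemma br_zero (x : ℂ) : br 0 0 x = 1 := by simp [br]

lemma AK_zero_zero (a : X.ι) : AK X R' 0 (0, a) = 0 := by
  unfold AK
  simp

lemma AK_zero_succ (m : ℕ) (a : X.ι) : AK X R' 0 (m + 1, a) = Finsupp.single (m, a) 1 := by
  unfold AK
  rw [zero_add, Finset.sum_range_one]
  rw [Finset.sum_eq_single a]
  · simp [br_zero]
  · intro b _ hb
    simp [br_zero, Matrix.one_apply_ne hb.symm]
  · simp

lemma CK_zero (x y : X.V) : CK X R' 0 x y
    = if x.1 = 0 ∧ y.1 = 0 then algebraMap ℂ R' (X.η x.2 y.2) else 0 := by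
  unfold CK
  simp

lemma one_par : X.par (0, X.one) % 2 = 0 := by
  simp [Target.par, X.p_one, X.q_one]

lemma one_par' : X.par (1, X.one) % 2 = 0 := by
  simp [Target.par, X.p_one, X.q_one]

/-- the value of the string equation on two-point functions -/
lemma string_two (h : IsG0 X F) (x y : X.V) :
    F [x, y, (0, X.one)] = dv (AK X R' 0 x) F [y] + dv (AK X R' 0 y) (dd x F) []
      + CK X R' 0 x y := by
  have h1 := congrFun h.string [x, y]
  have h2 := h.symm.cons_perm (o := (0, X.one)) one_par [x, y] []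
  simp only [List.cons_append, List.nil_append, List.append_nil] at h2
  rw [h2]
  simp only [dd_apply, Pi.add_apply, vf_cons, vf_nil, add_zero, quad_two] at h1
  exact h1

/-- the difference of the two sides of the two-point recursion -/
noncomputable def G (F : List X.V → R') (m n : ℕ) (a b : X.ι) : List X.V → R' :=
  W F (m + 1, a) (n, b) + W F (m, a) (n + 1, b)
    - ∑ c, ∑ d, algebraMap ℂ R' (X.η⁻¹ d c) •
      smul2 X.par (W F (0, c) (n, b)) (W F (m, a) (0, d))

lemma dd_sum {ι : Type*} {α R : Type*} [CommRing R] (s : Finset ι) (f : ι → List α → R)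
    (x : α) : dd x (∑ i ∈ s, f i) = ∑ i ∈ s, dd x (f i) := by
  funext L
  simp [dd_apply]

lemma dd_G (h : IsG0 X F) (m n : ℕ) (a b : X.ι) (y : X.V) : dd y (G F m n a b) = 0 := by
  unfold G
  rw [dd_sub, dd_add, trrL h, trrR h, dd_sum, sub_eq_zero]
  have e : ∑ c, ∑ c', algebraMap ℂ R' (X.η⁻¹ c c') •
      smul2 X.par (dd y (W F (0, c') (n, b))) (W F (m, a) (0, c))
      = ∑ c, ∑ d, algebraMap ℂ R' (X.η⁻¹ d c) •
      smul2 X.par (dd y (W F (0, c) (n, b))) (W F (m, a) (0, d)) := Finset.sum_comm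
  rw [e, ← Finset.sum_add_distrib]
  refine Finset.sum_congr rfl fun c _ => ?_
  rw [dd_sum, ← Finset.sum_add_distrib]
  refine Finset.sum_congr rfl fun d _ => ?_
  rw [dd_smul, dd_smul2, smul_add]

lemma al_inv_eta (a b : X.ι) : ∑ c, algebraMap ℂ R' (X.η⁻¹ a c) * algebraMap ℂ R' (X.η c b)
    = if a = b then 1 else 0 := by
  have := congrArg (algebraMap ℂ R') (inv_mul_apply X a b)
  rw [map_sum] at this
  simp only [map_mul] at this
  rw [this]
  split_ifs <;> simp

lemma al_eta_inv (a b : X.ι) : ∑ c, algebraMap ℂ R' (X.η a c) * algebraMap ℂ R' (X.η⁻¹ c b)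
    = if a = b then 1 else 0 := by
  have := congrArg (algebraMap ℂ R') (mul_inv_apply X a b)
  rw [map_sum] at this
  simp only [map_mul] at this
  rw [this]
  split_ifs <;> simp

/-- lowering of the first index in two-point functions -/
noncomputable def lo1 (F : List X.V → R') (x y : X.V) : R' := dv (AK X R' 0 x) F [y]

/-- lowering of the second index in two-point functions -/
noncomputable def lo2 (F : List X.V → R') (x y : X.V) : R' := dv (AK X R' 0 y) (dd x F) []

lemma lo1_zero (a : X.ι) (y : X.V) : lo1 F (0, a) y = 0 := by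
  simp [lo1, AK_zero_zero]

lemma lo2_zero (a : X.ι) (x : X.V) : lo2 F x (0, a) = 0 := by
  simp [lo2, AK_zero_zero]

lemma lo1_succ (m : ℕ) (a : X.ι) (y : X.V) : lo1 F (m + 1, a) y = F [(m, a), y] := by
  simp [lo1, AK_zero_succ]

lemma lo2_succ (m : ℕ) (a : X.ι) (x : X.V) : lo2 F x (m + 1, a) = F [x, (m, a)] := by
  simp [lo2, AK_zero_succ]

lemma G_one (h : IsG0 X F) (m n : ℕ) (a b : X.ι) :
    G F m n a b [(0, X.one)]
      = (lo1 F (m + 1, a) (n, b) + lo2 F (m + 1, a) (n, b) + CK X R' 0 (m + 1, a) (n, b))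
      + (lo1 F (m, a) (n + 1, b) + lo2 F (m, a) (n + 1, b) + CK X R' 0 (m, a) (n + 1, b))
      - ∑ c, ∑ d, algebraMap ℂ R' (X.η⁻¹ d c) *
        ((lo1 F (0, c) (n, b) + lo2 F (0, c) (n, b) + CK X R' 0 (0, c) (n, b))
            * F [(m, a), (0, d)]
          + F [(0, c), (n, b)] * (lo1 F (m, a) (0, d) + lo2 F (m, a) (0, d)
            + CK X R' 0 (m, a) (0, d))) := by
  have hs : ∀ x y : X.V, F [x, y, (0, X.one)] = lo1 F x y + lo2 F x y + CK X R' 0 x y :=
    string_two h
  have e : ∀ f g : List X.V → R', smul2 X.par f g [(0, X.one)]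
      = f [(0, X.one)] * g [] + f [] * g [(0, X.one)] := by
    intro f g
    rw [smul2_cons, smul2_nil, smul2_nil, tw_even one_par]
    rfl
  unfold G
  simp only [Pi.add_apply, Pi.sub_apply, Finset.sum_apply, Pi.smul_apply, smul_eq_mul, e]
  simp only [W, dd_apply, hs]

lemma G_zero (h : IsG0 X F) (n m : ℕ) (a b : X.ι) : G F m n a b [] = 0 := by
  have hG : ∀ m n a b, G F m n a b [(0, X.one)] = 0 := by
    intro m n a b
    have := congrFun (dd_G h m n a b (0, X.one)) []
    simpa using this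
  -- `G` at the origin
  have e0 : ∀ m n a b, G F m n a b [] = F [(m + 1, a), (n, b)] + F [(m, a), (n + 1, b)]
      - ∑ c, ∑ d, algebraMap ℂ R' (X.η⁻¹ d c) * (F [(0, c), (n, b)] * F [(m, a), (0, d)]) := by
    intro m n a b
    unfold G
    simp only [Pi.add_apply, Pi.sub_apply, Finset.sum_apply, Pi.smul_apply, smul_eq_mul,
      smul2_nil, W, dd_apply]
  -- contractions
  have c1 : ∀ (a : X.ι) (f : X.ι → R'), ∑ c, ∑ d, algebraMap ℂ R' (X.η⁻¹ d c) *
      (f c * algebraMap ℂ R' (X.η a d)) = f a := by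
    intro a f
    have : ∀ c, ∑ d, algebraMap ℂ R' (X.η⁻¹ d c) * (f c * algebraMap ℂ R' (X.η a d))
        = f c * if a = c then 1 else 0 := by
      intro c
      rw [← al_eta_inv (R' := R') a c, Finset.mul_sum]
      exact Finset.sum_congr rfl fun d _ => by ring
    rw [Finset.sum_congr rfl fun c _ => this c]
    simp
  have c2 : ∀ (b : X.ι) (f : X.ι → R'), ∑ c, ∑ d, algebraMap ℂ R' (X.η⁻¹ d c) *
      (algebraMap ℂ R' (X.η c b) * f d) = f b := by
    intro b f
    rw [Finset.sum_comm]
    have : ∀ d, ∑ c, algebraMap ℂ R' (X.η⁻¹ d c) * (algebraMap ℂ R' (X.η c b) * f d)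
        = f d * if d = b then 1 else 0 := by
      intro d
      rw [← al_inv_eta (R' := R') d b, Finset.mul_sum]
      exact Finset.sum_congr rfl fun c _ => by ring
    rw [Finset.sum_congr rfl fun c _ => this c]
    simp
  -- the relations
  have r1 : ∀ n a b, G F 0 n a b [] = 0 := by
    intro n a b
    have h1 := hG 0 (n + 1) a b
    rw [G_one h] at h1
    simp only [lo1_zero, lo1_succ, lo2_succ, lo2_zero, CK_zero, Nat.succ_ne_zero, and_false,
      false_and, if_false, true_and, if_true, and_self,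
      add_zero, zero_add, mul_add, Finset.sum_add_distrib, c1] at h1
    rw [e0]
    simp only [zero_add]
    linear_combination h1
  have r2 : ∀ m n a b, G F (m + 1) n a b [] + G F m (n + 1) a b [] = 0 := by
    intro m n a b
    have h1 := hG (m + 1) (n + 1) a b
    rw [G_one h] at h1
    simp only [lo1_zero, lo1_succ, lo2_succ, lo2_zero, CK_zero, Nat.succ_ne_zero, and_false,
      false_and, if_false, true_and, if_true, and_self,
      add_zero, zero_add, mul_add, Finset.sum_add_distrib] at h1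
    rw [e0, e0]
    linear_combination h1
  induction m generalizing n with
  | zero => exact r1 n a b
  | succ m ih =>
    have := r2 m n a b
    rw [ih (n + 1), add_zero] at this
    exact this

lemma G_eq_zero (h : IsG0 X F) (m n : ℕ) (a b : X.ι) : G F m n a b = 0 := by
  funext L
  cases L with
  | nil => exact G_zero h n m a b
  | cons y L => exact congrFun (dd_G h m n a b y) L

/-- the two-point recursion -/
lemma two_point (h : IsG0 X F) (m n : ℕ) (a b : X.ι) :
    W F (m + 1, a) (n, b) + W F (m, a) (n + 1, b)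
    = ∑ c, ∑ d, algebraMap ℂ R' (X.η⁻¹ d c) •
      smul2 X.par (W F (0, c) (n, b)) (W F (m, a) (0, d)) := by
  have := G_eq_zero h m n a b
  unfold G at this
  exact sub_eq_zero.1 this

end Vale.Agent.P269.H332
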